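/- A moment bound for random sums of rank-one Hermitian matrices. -/
import Mathlib

namespace Vale.Agent.Anderson

open Matrix Finset MeasureTheory
open scoped ComplexConjugate

variable {ι : Type*} [Fintype ι] [DecidableEq ι]

/-- The random matrix `B diag(v) B`. -/
noncomputable def randMat (B : Matrix ι ι ℂ) (v : ι → ℝ) : Matrix ι ι ℂ :=
  B * diagonal (fun x => (v x : ℂ)) * B

lemma randMat_isHermitian {B : Matrix ι ι ℂ} (hB : B.IsHermitian) (v : ι → ℝ) :
    (randMat B v).IsHermitian := by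
  unfold randMat Matrix.IsHermitian
  rw [conjTranspose_mul, conjTranspose_mul, hB.eq, diagonal_conjTranspose, ← Matrix.mul_assoc]
  congr
  funext x
  simp [Pi.star_apply, Complex.conj_ofReal]

/-- Diagonal moments. -/
noncomputable def diagMoment (B : Matrix ι ι ℂ) (v : ι → ℝ) (q : ℕ) (x : ι) : ℝ :=
  ((B * randMat B v ^ q * B) x x).re

/-- Trace moments. -/
noncomputable def trMoment (B : Matrix ι ι ℂ) (v : ι → ℝ) (q : ℕ) : ℝ :=
  (trace (randMat B v ^ q)).re

lemma conj_pow_aux {A D U W : Matrix ι ι ℂ} (h1 : W * U = 1) (h2 : U * W = 1)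
    (hA : A = U * D * W) : ∀ q : ℕ, A ^ q = U * D ^ q * W := by
  intro q
  induction q with
  | zero => simp [h2]
  | succ q ih =>
    rw [pow_succ, ih, hA, pow_succ]
    calc U * D ^ q * W * (U * D * W) = U * D ^ q * (W * U) * D * W := by
          simp only [Matrix.mul_assoc]
      _ = _ := by rw [h1, Matrix.mul_one]; simp only [Matrix.mul_assoc]

lemma exists_spectral_repr {B : Matrix ι ι ℂ} (hB : B.IsHermitian) (v : ι → ℝ) :
    ∃ (μ : ι → ℝ) (W : Matrix ι ι ℂ), Wᴴ * W = 1 ∧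
      ∀ q : ℕ, randMat B v ^ q = Wᴴ * diagonal (fun i => ((μ i ^ q : ℝ) : ℂ)) * W := by
  have hT := randMat_isHermitian hB v
  set U : Matrix ι ι ℂ := (hT.eigenvectorUnitary : Matrix ι ι ℂ) with hU
  have h2 : U * star U = 1 := by
    rw [hU]; exact Unitary.coe_mul_star_self _
  have h1 : star U * U = 1 := by
    rw [hU]; exact Unitary.coe_star_mul_self _
  refine ⟨hT.eigenvalues, star U, ?_, fun q => ?_⟩
  · simpa [star_eq_conjTranspose] using h2
  · have hA : randMat B v =
        U * diagonal (fun i => ((hT.eigenvalues i : ℝ) : ℂ)) * star U := by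
      conv_lhs => rw [hT.spectral_theorem, Unitary.conjStarAlgAut_apply]
      rfl
    rw [conj_pow_aux h1 h2 hA q, diagonal_pow]
    simp [star_eq_conjTranspose, Pi.pow_def]

lemma conj_diag_apply (A : Matrix ι ι ℂ) (c : ι → ℝ) (x : ι) :
    ((Aᴴ * diagonal (fun i => (c i : ℂ)) * A) x x) =
      ((∑ i, c i * ‖A i x‖ ^ 2 : ℝ) : ℂ) := by
  rw [Matrix.mul_apply]
  push_cast
  refine Finset.sum_congr rfl fun i _ => ?_
  rw [Matrix.mul_diagonal, conjTranspose_apply, mul_right_comm, mul_comm]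
  congr 1
  exact Complex.conj_mul' _

lemma isometry_sum_sq {W : Matrix ι ι ℂ} (hW : Wᴴ * W = 1) (u : ι → ℂ) :
    ∑ i, ‖(W *ᵥ u) i‖ ^ 2 = ∑ i, ‖u i‖ ^ 2 := by
  have key : ∀ u : ι → ℂ, ((∑ i, ‖u i‖ ^ 2 : ℝ) : ℂ) = star u ⬝ᵥ u := by
    intro u
    push_cast
    exact Finset.sum_congr rfl fun i _ => (Complex.conj_mul' (u i)).symm
  apply Complex.ofReal_injective
  rw [key, key, star_mulVec, ← dotProduct_mulVec, mulVec_mulVec, hW, one_mulVec]

lemma exists_moment_repr {B : Matrix ι ι ℂ} (hB : B.IsHermitian) (v : ι → ℝ) {g : ℝ} (x : ι)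
    (hrow : ∑ y, ‖B y x‖ ^ 2 ≤ g) :
    ∃ (μ w : ι → ℝ), (∀ i, 0 ≤ w i) ∧ ∑ i, w i ≤ g ∧
      ∀ q : ℕ, (B * randMat B v ^ q * B) x x = ((∑ i, μ i ^ q * w i : ℝ) : ℂ) := by
  obtain ⟨μ, W, hW, hq⟩ := exists_spectral_repr hB v
  refine ⟨μ, fun i => ‖(W * B) i x‖ ^ 2, fun i => sq_nonneg _, ?_, fun q => ?_⟩
  · have := isometry_sum_sq hW (fun y => B y x)
    exact le_trans (le_of_eq this) hrow
  · rw [hq q]
    have : B * (Wᴴ * diagonal (fun i => ((μ i ^ q : ℝ) : ℂ)) * W) * B =
        (W * B)ᴴ * diagonal (fun i => ((μ i ^ q : ℝ) : ℂ)) * (W * B) := by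
      rw [conjTranspose_mul, hB.eq]; simp only [Matrix.mul_assoc]
    rw [this, conj_diag_apply]

lemma pow_pair_le {a b : ℝ} (ha : 0 ≤ a) (hb : 0 ≤ b) (q r : ℕ) :
    a ^ q * b ^ r + a ^ r * b ^ q ≤ a ^ (q + r) + b ^ (q + r) := by
  rcases le_total a b with h | h
  · have h1 := pow_le_pow_left₀ ha h q
    have h2 := pow_le_pow_left₀ ha h r
    rw [pow_add, pow_add]; nlinarith [mul_nonneg (sub_nonneg.mpr h1) (sub_nonneg.mpr h2)]
  · have h1 := pow_le_pow_left₀ hb h q
    have h2 := pow_le_pow_left₀ hb h r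
    rw [pow_add, pow_add]; nlinarith [mul_nonneg (sub_nonneg.mpr h1) (sub_nonneg.mpr h2)]

lemma sum_pow_pair_le {a b : ℝ} (n : ℕ) (hn : Even n) :
    ∑ q ∈ range (n + 1), |a ^ q * b ^ (n - q)| ≤ (n + 1 : ℝ) / 2 * (a ^ n + b ^ n) := by
  have hrefl := Finset.sum_range_reflect (fun q => |a ^ q * b ^ (n - q)|) (n + 1)
  have h2 : ∑ q ∈ range (n + 1), (|a ^ q * b ^ (n - q)| + |a ^ (n - q) * b ^ q|) ≤
      ∑ _q ∈ range (n + 1), (a ^ n + b ^ n) := by
    refine Finset.sum_le_sum fun q hq => ?_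
    have hqn : q ≤ n := Nat.lt_succ_iff.mp (Finset.mem_range.mp hq)
    have := pow_pair_le (abs_nonneg a) (abs_nonneg b) q (n - q)
    rw [Nat.add_sub_cancel' hqn, hn.pow_abs, hn.pow_abs] at this
    simpa [abs_mul, abs_pow] using this
  rw [Finset.sum_add_distrib, Finset.sum_const, Finset.card_range, nsmul_eq_mul] at h2
  have h3 : ∑ q ∈ range (n + 1), |a ^ (n - q) * b ^ q| =
      ∑ q ∈ range (n + 1), |a ^ q * b ^ (n - q)| := by
    rw [← hrefl]
    refine Finset.sum_congr rfl fun q hq => ?_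
    have hqn : q ≤ n := Nat.lt_succ_iff.mp (Finset.mem_range.mp hq)
    simp only [Nat.add_sub_cancel, Nat.sub_sub_self hqn]
  rw [h3] at h2
  push_cast at h2
  linarith

lemma pow_sub_pow_sum (T T' : Matrix ι ι ℂ) : ∀ n : ℕ,
    T ^ n - T' ^ n = ∑ q ∈ range n, T ^ q * (T - T') * T' ^ (n - 1 - q) := by
  intro n
  induction n with
  | zero => simp
  | succ n ih =>
    rw [Finset.sum_range_succ']
    simp only [pow_succ', Nat.add_sub_cancel, Nat.sub_zero, pow_zero, one_mul]
    have h : ∑ q ∈ range n, T * T ^ q * (T - T') * T' ^ (n - (q + 1)) = T * (T ^ n - T' ^ n) := by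
      rw [ih, Finset.mul_sum]
      refine Finset.sum_congr rfl fun q _ => ?_
      have e : n - (q + 1) = n - 1 - q := by omega
      simp only [Matrix.mul_assoc, e]
    rw [h]
    simp only [mul_sub, sub_mul]
    abel

lemma flip_diff_le {B : Matrix ι ι ℂ} (hB : B.IsHermitian) {g : ℝ} (v : ι → ℝ) (x : ι)
    (hrow : ∑ y, ‖B y x‖ ^ 2 ≤ g) (n : ℕ) (hn : Even n) :
    |diagMoment B v (n + 1) x - diagMoment B (Function.update v x (-v x)) (n + 1) x| ≤
      |v x| * (n + 1) * g *
        (diagMoment B v n x + diagMoment B (Function.update v x (-v x)) n x) := by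
  set v' := Function.update v x (-v x) with hv'
  obtain ⟨μ, w, hw, hwg, hq⟩ := exists_moment_repr hB v x hrow
  obtain ⟨ν, u, hu, hug, hq'⟩ := exists_moment_repr hB v' x hrow
  have hdiag : diagonal (fun y => (v y : ℂ)) - diagonal (fun y => (v' y : ℂ)) =
      Matrix.single x x ((2 * v x : ℝ) : ℂ) := by
    ext i j
    rcases eq_or_ne i j with rfl | hij
    · rcases eq_or_ne i x with rfl | hix
      · simp [hv']; ring
      · simp [hv', hix, Matrix.single, Ne.symm hix]
    · simp [hij, Matrix.single]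
      intro h1 h2; exact absurd (h1.symm.trans h2) hij
  have hTT : randMat B v - randMat B v' = B * Matrix.single x x ((2 * v x : ℝ) : ℂ) * B := by
    unfold randMat
    rw [← Matrix.sub_mul, ← Matrix.mul_sub, hdiag]
  have hterm : ∀ M M' : Matrix ι ι ℂ,
      (B * (M * (B * Matrix.single x x ((2 * v x : ℝ) : ℂ) * B) * M') * B) x x =
        (B * M * B) x x * ((2 * v x : ℝ) : ℂ) * (B * M' * B) x x := by
    intro M M'
    have : B * (M * (B * Matrix.single x x ((2 * v x : ℝ) : ℂ) * B) * M') * B =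
        (B * M * B) * Matrix.single x x ((2 * v x : ℝ) : ℂ) * (B * M' * B) := by
      simp only [Matrix.mul_assoc]
    rw [this, Matrix.mul_assoc (B * M * B), Matrix.mul_apply]
    rw [Finset.sum_eq_single x]
    · rw [Matrix.single_mul_apply_same]; ring
    · intro b _ hb
      rw [Matrix.single_mul_apply_of_ne (h := hb), mul_zero]
    · simp
  have hdiff : diagMoment B v (n + 1) x - diagMoment B v' (n + 1) x =
      ∑ q ∈ range (n + 1), (2 * v x) *
        ((∑ i, μ i ^ q * w i) * (∑ j, ν j ^ (n - q) * u j)) := by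
    unfold diagMoment
    rw [← Complex.sub_re, ← Matrix.sub_apply, ← Matrix.sub_mul, ← Matrix.mul_sub,
      pow_sub_pow_sum, Finset.mul_sum, Finset.sum_mul, Matrix.sum_apply, Complex.re_sum]
    refine Finset.sum_congr rfl fun q _ => ?_
    rw [hTT, hterm, hq, hq', Nat.add_sub_cancel, ← Complex.ofReal_mul, ← Complex.ofReal_mul,
      Complex.ofReal_re]
    ring
  rw [hdiff]
  refine le_trans (Finset.abs_sum_le_sum_abs _ _) ?_
  have hb : ∀ q, |(2 * v x) * ((∑ i, μ i ^ q * w i) * (∑ j, ν j ^ (n - q) * u j))| ≤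
      2 * |v x| * ∑ i, ∑ j, w i * u j * |μ i ^ q * ν j ^ (n - q)| := by
    intro q
    rw [abs_mul, abs_mul 2, abs_two, Finset.sum_mul_sum]
    refine mul_le_mul_of_nonneg_left ?_ (by positivity)
    refine le_trans (Finset.abs_sum_le_sum_abs _ _) (Finset.sum_le_sum fun i _ => ?_)
    refine le_trans (Finset.abs_sum_le_sum_abs _ _) (Finset.sum_le_sum fun j _ => le_of_eq ?_)
    rw [show μ i ^ q * w i * (ν j ^ (n - q) * u j) = w i * u j * (μ i ^ q * ν j ^ (n - q)) by ring,
      abs_mul, abs_of_nonneg (mul_nonneg (hw i) (hu j))]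
  refine le_trans (Finset.sum_le_sum fun q _ => hb q) ?_
  rw [← Finset.mul_sum, Finset.sum_comm]
  have hmid : ∑ i, ∑ q ∈ range (n + 1), ∑ j, w i * u j * |μ i ^ q * ν j ^ (n - q)| ≤
      ∑ i, ∑ j, w i * u j * ((n + 1 : ℝ) / 2 * (μ i ^ n + ν j ^ n)) := by
    refine Finset.sum_le_sum fun i _ => ?_
    rw [Finset.sum_comm]
    refine Finset.sum_le_sum fun j _ => ?_
    rw [← Finset.mul_sum]
    exact mul_le_mul_of_nonneg_left (sum_pow_pair_le n hn) (mul_nonneg (hw i) (hu j))
  refine le_trans (mul_le_mul_of_nonneg_left hmid (by positivity)) ?_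
  have hfin : ∑ i, ∑ j, w i * u j * ((n + 1 : ℝ) / 2 * (μ i ^ n + ν j ^ n)) =
      (n + 1 : ℝ) / 2 *
        ((∑ i, μ i ^ n * w i) * (∑ j, u j) + (∑ i, w i) * (∑ j, ν j ^ n * u j)) := by
    rw [Finset.sum_mul_sum, Finset.sum_mul_sum, ← Finset.sum_add_distrib, Finset.mul_sum]
    refine Finset.sum_congr rfl fun i _ => ?_
    rw [← Finset.sum_add_distrib, Finset.mul_sum]
    exact Finset.sum_congr rfl fun j _ => by ring
  rw [hfin]
  unfold diagMoment
  rw [hq, hq', Complex.ofReal_re, Complex.ofReal_re]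
  have p1 : 0 ≤ ∑ i, μ i ^ n * w i :=
    Finset.sum_nonneg fun i _ => mul_nonneg (hn.pow_nonneg _) (hw i)
  have p2 : 0 ≤ ∑ j, ν j ^ n * u j :=
    Finset.sum_nonneg fun i _ => mul_nonneg (hn.pow_nonneg _) (hu i)
  have hk : 0 ≤ |v x| * ((n:ℝ) + 1) := by positivity
  nlinarith [mul_nonneg hk (mul_nonneg p1 (sub_nonneg.mpr hug)),
    mul_nonneg hk (mul_nonneg p2 (sub_nonneg.mpr hwg))]

lemma diagMoment_nonneg {B : Matrix ι ι ℂ} (hB : B.IsHermitian) (v : ι → ℝ) (x : ι)
    (n : ℕ) (hn : Even n) : 0 ≤ diagMoment B v n x := by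
  obtain ⟨μ, w, hw, -, hq⟩ := exists_moment_repr hB v x (le_refl _)
  rw [diagMoment, hq, Complex.ofReal_re]
  exact Finset.sum_nonneg fun i _ => mul_nonneg (hn.pow_nonneg _) (hw i)

lemma trMoment_succ (B : Matrix ι ι ℂ) (v : ι → ℝ) (m : ℕ) :
    trMoment B v (m + 1) = ∑ x, v x * diagMoment B v m x := by
  unfold trMoment diagMoment
  rw [pow_succ]
  conv_lhs => arg 1; arg 1; arg 2; unfold randMat
  rw [← Matrix.mul_assoc, ← Matrix.mul_assoc, trace_mul_comm, ← Matrix.mul_assoc,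
    ← Matrix.mul_assoc, trace, Complex.re_sum]
  refine Finset.sum_congr rfl fun x _ => ?_
  rw [diag_apply, Matrix.mul_diagonal, mul_comm, Complex.re_ofReal_mul]

lemma trace_conj_self (A : Matrix ι ι ℂ) :
    trace (Aᴴ * A) = ((∑ j, ∑ i, ‖A i j‖ ^ 2 : ℝ) : ℂ) := by
  rw [trace]
  push_cast
  refine Finset.sum_congr rfl fun j _ => ?_
  rw [diag_apply, Matrix.mul_apply]
  exact Finset.sum_congr rfl fun i _ => by rw [conjTranspose_apply]; exact Complex.conj_mul' _

lemma sum_diagMoment_le {B : Matrix ι ι ℂ} (hB : B.IsHermitian) {h : ℝ}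
    (hop : ∀ u : ι → ℂ, ∑ i, ‖(B *ᵥ u) i‖ ^ 2 ≤ h * ∑ i, ‖u i‖ ^ 2)
    (v : ι → ℝ) (p : ℕ) :
    ∑ x, diagMoment B v (2 * p) x ≤ h * trMoment B v (2 * p) := by
  set S := randMat B v ^ p with hS
  have hSh : Sᴴ = S := ((randMat_isHermitian hB v).pow p).eq
  have h2 : randMat B v ^ (2 * p) = S * S := by rw [hS, ← pow_add]; ring_nf
  have e1 : ∑ x, diagMoment B v (2 * p) x = (trace ((B * S)ᴴ * (B * S))).re := by
    unfold diagMoment
    rw [← Complex.re_sum, h2]
    congr 1
    change trace (B * (S * S) * B) = _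
    rw [conjTranspose_mul, hB.eq, hSh, trace_mul_comm,
      show B * (B * (S * S)) = B * B * S * S by simp only [Matrix.mul_assoc],
      trace_mul_comm (B * B * S) S]
    simp only [Matrix.mul_assoc]
  have e2 : trMoment B v (2 * p) = (trace (Sᴴ * S)).re := by
    unfold trMoment; rw [h2, hSh]
  rw [e1, e2, trace_conj_self, trace_conj_self, Complex.ofReal_re, Complex.ofReal_re,
    Finset.mul_sum]
  exact Finset.sum_le_sum fun j _ => hop (fun i => S i j)

lemma randMat_small {B : Matrix ι ι ℂ} (hB : B.IsHermitian) (v : ι → ℝ) {p : ℕ} (hp : 1 ≤ p)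
    (htr : trMoment B v (2 * p) ≤ (1 / 2) ^ (2 * p)) (u : ι → ℂ) :
    ∑ i, ‖(randMat B v *ᵥ u) i‖ ^ 2 ≤ 1 / 4 * ∑ i, ‖u i‖ ^ 2 := by
  obtain ⟨μ, W, hW, hq⟩ := exists_spectral_repr hB v
  have hW' : W * Wᴴ = 1 := mul_eq_one_comm.mp hW
  have htrsum : trMoment B v (2 * p) = ∑ i, μ i ^ (2 * p) := by
    unfold trMoment
    rw [hq, trace_mul_comm, ← Matrix.mul_assoc, hW', Matrix.one_mul, trace_diagonal,
      Complex.re_sum]
    simp only [Complex.ofReal_re]
  have hev : Even (2 * p) := even_two_mul p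
  have hμ : ∀ i, μ i ^ 2 ≤ 1 / 4 := by
    intro i
    have h1 : μ i ^ (2 * p) ≤ (1 / 2) ^ (2 * p) := by
      refine le_trans ?_ htr
      rw [htrsum]
      exact Finset.single_le_sum (fun j _ => hev.pow_nonneg _) (Finset.mem_univ i)
    rw [← hev.pow_abs, pow_le_pow_iff_left₀ (abs_nonneg _) (by norm_num) (by omega)] at h1
    nlinarith [sq_abs (μ i), abs_nonneg (μ i)]
  have e : randMat B v *ᵥ u =
      Wᴴ *ᵥ (diagonal (fun i => ((μ i : ℝ) : ℂ)) *ᵥ (W *ᵥ u)) := by
    rw [mulVec_mulVec, mulVec_mulVec, ← pow_one (randMat B v), hq 1]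
    simp only [pow_one]
  rw [e, isometry_sum_sq (by rw [conjTranspose_conjTranspose]; exact hW'),
    ← isometry_sum_sq hW u, Finset.mul_sum]
  refine Finset.sum_le_sum fun i _ => ?_
  rw [mulVec_diagonal, norm_mul, mul_pow, Complex.norm_real, Real.norm_eq_abs, sq_abs]
  exact mul_le_mul_of_nonneg_right (hμ i) (sq_nonneg _)

/-- The uniform probability measure on `[-1, 1]`. -/
noncomputable def unifLaw : Measure ℝ :=
  (ENNReal.ofReal (1 / 2)) • volume.restrict (Set.Icc (-1) 1)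

instance : IsProbabilityMeasure unifLaw := by
  constructor
  rw [unifLaw, Measure.smul_apply, Measure.restrict_apply MeasurableSet.univ, Set.univ_inter,
    Real.volume_Icc, smul_eq_mul, ← ENNReal.ofReal_mul (by norm_num)]
  norm_num

lemma unifLaw_neg : MeasurePreserving (fun t : ℝ => -t) unifLaw unifLaw := by
  refine ⟨measurable_neg, ?_⟩
  rw [unifLaw, Measure.map_smul]
  congr 1
  have h := (Measure.measurePreserving_neg (volume : Measure ℝ)).restrict_preimage
    (s := Set.Icc (-1:ℝ) 1) measurableSet_Icc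
  have e : Neg.neg ⁻¹' Set.Icc (-1:ℝ) 1 = Set.Icc (-1:ℝ) 1 := by
    ext t; simp [neg_le, le_neg, and_comm]
  rw [e] at h
  exact h.map_eq

lemma unifLaw_ae : ∀ᵐ t ∂unifLaw, t ∈ Set.Icc (-1:ℝ) 1 := by
  rw [unifLaw]
  exact Measure.ae_smul_measure (ae_restrict_mem measurableSet_Icc) _

variable (ι) in
/-- The i.i.d. uniform law on `ι`. -/
noncomputable def boxLaw : Measure (ι → ℝ) := Measure.pi fun _ => unifLaw

instance : IsProbabilityMeasure (boxLaw ι) := by unfold boxLaw; infer_instance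

lemma boxLaw_ae : ∀ᵐ ω ∂(boxLaw ι), ∀ x, |ω x| ≤ 1 := by
  rw [ae_all_iff]
  intro x
  have := (measurePreserving_eval (fun _ : ι => unifLaw) x).quasiMeasurePreserving.ae unifLaw_ae
  exact this.mono fun ω h => abs_le.mpr h

lemma boxLaw_flip (x : ι) :
    MeasurePreserving (fun ω : ι → ℝ => Function.update ω x (-ω x)) (boxLaw ι) (boxLaw ι) := by
  have := measurePreserving_pi (fun _ : ι => unifLaw) (fun _ : ι => unifLaw)
    (f := fun y => if y = x then (fun t : ℝ => -t) else id)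
    (fun y => by
      split
      · exact unifLaw_neg
      · exact MeasurePreserving.id _)
  unfold boxLaw
  convert this using 1
  funext ω y
  rcases eq_or_ne y x with rfl | h
  · simp
  · simp [h]

lemma boxLaw_integrable {f : (ι → ℝ) → ℝ} (hf : Continuous f) : Integrable f (boxLaw ι) := by
  have hK : IsCompact (Set.univ.pi fun _ : ι => Set.Icc (-1:ℝ) 1) :=
    isCompact_univ_pi fun _ => isCompact_Icc
  have h := hf.continuousOn.integrableOn_compact (μ := boxLaw ι) hK
  rwa [IntegrableOn, Measure.restrict_eq_self_of_ae_mem] at h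
  exact boxLaw_ae.mono fun ω h => fun x _ => abs_le.mp (h x)

lemma continuous_diagMoment (B : Matrix ι ι ℂ) (lam : ℝ) (q : ℕ) (x : ι) :
    Continuous fun ω : ι → ℝ => diagMoment B (fun y => lam * ω y) q x := by
  unfold diagMoment randMat
  fun_prop

lemma continuous_trMoment (B : Matrix ι ι ℂ) (lam : ℝ) (q : ℕ) :
    Continuous fun ω : ι → ℝ => trMoment B (fun y => lam * ω y) q := by
  unfold trMoment randMat
  fun_prop

theorem moment_bound {B : Matrix ι ι ℂ} (hB : B.IsHermitian) {g h lam : ℝ} (hg : 0 ≤ g)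
    (hh : 0 ≤ h) (hlam : 0 ≤ lam)
    (hrow : ∀ x, ∑ y, ‖B y x‖ ^ 2 ≤ g)
    (hop : ∀ u : ι → ℂ, ∑ i, ‖(B *ᵥ u) i‖ ^ 2 ≤ h * ∑ i, ‖u i‖ ^ 2) :
    ∀ p : ℕ, ∫ ω, trMoment B (fun y => lam * ω y) (2 * p) ∂(boxLaw ι) ≤
      ((2 * p : ℝ) * lam ^ 2 * g * h) ^ p * Fintype.card ι := by
  intro P
  suffices H : ∀ p ≤ P, ∫ ω, trMoment B (fun y => lam * ω y) (2 * p) ∂(boxLaw ι) ≤
      ((2 * P : ℝ) * lam ^ 2 * g * h) ^ p * Fintype.card ι from H P le_rfl
  intro p
  induction p with
  | zero =>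
    intro _
    simp [trMoment, trace_one]
  | succ p ih =>
    intro hp
    have ih' := ih (by omega)
    set F : ι → (ι → ℝ) → ℝ := fun x ω =>
      lam * ω x * diagMoment B (fun y => lam * ω y) (2 * p + 1) x with hF
    set A : ι → (ι → ℝ) → ℝ := fun x ω =>
      diagMoment B (fun y => lam * ω y) (2 * p) x with hA
    have hAc : ∀ x, Continuous (A x) := fun x => continuous_diagMoment B lam _ x
    have hFc : ∀ x, Continuous (F x) := fun x =>
      ((continuous_const.mul (continuous_apply x)).mul (continuous_diagMoment B lam _ x))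
    have hflipc : ∀ x, Continuous fun ω : ι → ℝ => Function.update ω x (-ω x) := fun x =>
      continuous_id.update x (continuous_apply x).neg
    have hexp : ∀ ω : ι → ℝ, trMoment B (fun y => lam * ω y) (2 * (p + 1)) = ∑ x, F x ω := by
      intro ω
      rw [show 2 * (p + 1) = 2 * p + 1 + 1 by ring, trMoment_succ]
    simp only [hexp]
    rw [integral_finsetSum _ fun x _ => boxLaw_integrable (hFc x)]
    have hx : ∀ x, ∫ ω, F x ω ∂(boxLaw ι) ≤
        (2 * p + 1 : ℝ) * g * lam ^ 2 * ∫ ω, A x ω ∂(boxLaw ι) := by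
      intro x
      set τ : (ι → ℝ) → (ι → ℝ) := fun ω => Function.update ω x (-ω x)
      have hmap : ∀ G : (ι → ℝ) → ℝ, Continuous G →
          ∫ ω, G (τ ω) ∂(boxLaw ι) = ∫ ω, G ω ∂(boxLaw ι) := by
        intro G hG
        rw [← integral_map (boxLaw_flip x).measurable.aemeasurable hG.aestronglyMeasurable,
          (boxLaw_flip x).map_eq]
      have h1 := hmap (F x) (hFc x)
      have h2 := hmap (A x) (hAc x)
      have hAi := boxLaw_integrable (hAc x)
      have hAτ : Integrable (fun ω => A x (τ ω)) (boxLaw ι) :=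
        boxLaw_integrable ((hAc x).comp (hflipc x))
      have hFi := boxLaw_integrable (hFc x)
      have hFτ : Integrable (fun ω => F x (τ ω)) (boxLaw ι) :=
        boxLaw_integrable ((hFc x).comp (hflipc x))
      have hle : (fun ω => F x ω + F x (τ ω)) ≤ᵐ[boxLaw ι]
          fun ω => (2 * p + 1 : ℝ) * g * lam ^ 2 * (A x ω + A x (τ ω)) := by
        filter_upwards [boxLaw_ae] with ω hω
        have hupd : (fun y => lam * τ ω y) =
            Function.update (fun y => lam * ω y) x (-(lam * ω x)) := by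
          funext y
          rcases eq_or_ne y x with rfl | hy
          · simp [τ]
          · simp [τ, hy]
        have hd := flip_diff_le hB (fun y => lam * ω y) x (hrow x) (2 * p) (even_two_mul p)
        have hn1 : 0 ≤ A x ω := diagMoment_nonneg hB _ x _ (even_two_mul p)
        have hn2 : 0 ≤ A x (τ ω) := diagMoment_nonneg hB _ x _ (even_two_mul p)
        simp only [hF, hA] at hn1 hn2 ⊢
        simp only [hupd, show τ ω x = -ω x by simp [τ]] at hn2 ⊢
        push_cast at hd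
        set a := diagMoment B (fun y => lam * ω y) (2 * p) x +
          diagMoment B (Function.update (fun y => lam * ω y) x (-(lam * ω x))) (2 * p) x
        have ha : 0 ≤ a := add_nonneg hn1 hn2
        refine le_trans (le_of_eq (b := lam * ω x *
          (diagMoment B (fun y => lam * ω y) (2 * p + 1) x -
            diagMoment B (Function.update (fun y => lam * ω y) x (-(lam * ω x))) (2 * p + 1) x))
          (by ring)) (le_trans (le_abs_self _) ?_)
        rw [abs_mul]
        refine le_trans (mul_le_mul_of_nonneg_left hd (abs_nonneg _)) ?_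
        have hl : |lam * ω x| ≤ lam := by
          rw [abs_mul, abs_of_nonneg hlam]; exact mul_le_of_le_one_right hlam (hω x)
        have hl2 : |lam * ω x| * |lam * ω x| ≤ lam ^ 2 := by
          rw [sq]; exact mul_le_mul hl hl (abs_nonneg _) hlam
        calc |lam * ω x| * (|lam * ω x| * (2 * (p:ℝ) + 1) * g * a)
            = |lam * ω x| * |lam * ω x| * ((2 * (p:ℝ) + 1) * g * a) := by ring
          _ ≤ lam ^ 2 * ((2 * (p:ℝ) + 1) * g * a) :=
              mul_le_mul_of_nonneg_right hl2 (by positivity)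
          _ = _ := by ring
      have hI := integral_mono_ae (hFi.add hFτ) ((hAi.add hAτ).const_mul _) hle
      simp only [Pi.add_apply] at hI
      rw [integral_add hFi hFτ, integral_const_mul, integral_add hAi hAτ, h1, h2] at hI
      linarith
    refine le_trans (Finset.sum_le_sum fun x _ => hx x) ?_
    rw [← Finset.mul_sum, ← integral_finsetSum _ fun x _ => boxLaw_integrable (hAc x)]
    have hsum : ∫ ω, ∑ x, A x ω ∂(boxLaw ι) ≤
        ∫ ω, h * trMoment B (fun y => lam * ω y) (2 * p) ∂(boxLaw ι) :=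
      integral_mono (integrable_finsetSum _ fun x _ => boxLaw_integrable (hAc x))
        ((boxLaw_integrable (continuous_trMoment B lam _)).const_mul h)
        (fun ω => sum_diagMoment_le hB hop _ p)
    rw [integral_const_mul] at hsum
    refine le_trans (mul_le_mul_of_nonneg_left
      (le_trans hsum (mul_le_mul_of_nonneg_left ih' hh)) (by positivity)) ?_
    rw [pow_succ ((2 * P : ℝ) * lam ^ 2 * g * h) p]
    have hc : (2 * p + 1 : ℝ) ≤ 2 * P := by
      have : ((p + 1 : ℕ) : ℝ) ≤ P := by exact_mod_cast hp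
      push_cast at this; linarith
    have hX : 0 ≤ g * lam ^ 2 * h *
        (((2 * P : ℝ) * lam ^ 2 * g * h) ^ p * Fintype.card ι) := by positivity
    nlinarith [mul_le_mul_of_nonneg_right hc hX]

/-- With high probability `B diag(lam ω) B` has norm at most one half. -/
theorem randMat_tail {B : Matrix ι ι ℂ} (hB : B.IsHermitian) {g h lam : ℝ} (hg : 0 ≤ g)
    (hh : 0 ≤ h) (hlam : 0 ≤ lam)
    (hrow : ∀ x, ∑ y, ‖B y x‖ ^ 2 ≤ g)
    (hop : ∀ u : ι → ℂ, ∑ i, ‖(B *ᵥ u) i‖ ^ 2 ≤ h * ∑ i, ‖u i‖ ^ 2)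
    (p : ℕ) (hp : 1 ≤ p) :
    ∃ S : Set (ι → ℝ), MeasurableSet S ∧
      boxLaw ι S ≤ ENNReal.ofReal ((8 * (p:ℝ) * lam ^ 2 * g * h) ^ p * Fintype.card ι) ∧
      ∀ ω ∉ S, ∀ u : ι → ℂ,
        ∑ i, ‖(randMat B (fun y => lam * ω y) *ᵥ u) i‖ ^ 2 ≤ 1 / 4 * ∑ i, ‖u i‖ ^ 2 := by
  set f : (ι → ℝ) → ℝ := fun ω => trMoment B (fun y => lam * ω y) (2 * p) with hf
  have hfc : Continuous f := continuous_trMoment B lam _
  refine ⟨{ω | (1 / 2 : ℝ) ^ (2 * p) ≤ f ω}, measurableSet_le measurable_const hfc.measurable,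
    ?_, fun ω hω u => randMat_small hB _ hp (le_of_lt (not_le.mp hω)) u⟩
  have hf0 : ∀ ω, 0 ≤ f ω := by
    intro ω
    obtain ⟨μ, W, hW, hq⟩ := exists_spectral_repr hB (fun y => lam * ω y)
    have hW' : W * Wᴴ = 1 := mul_eq_one_comm.mp hW
    simp only [hf, trMoment]
    rw [hq, trace_mul_comm, ← Matrix.mul_assoc, hW', Matrix.one_mul, trace_diagonal,
      Complex.re_sum]
    exact Finset.sum_nonneg fun i _ => by
      rw [Complex.ofReal_re]; exact (even_two_mul p).pow_nonneg _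
  have hmk := mul_meas_ge_le_integral_of_nonneg (Filter.Eventually.of_forall hf0)
    (boxLaw_integrable hfc) ((1 / 2 : ℝ) ^ (2 * p))
  have hb := moment_bound hB hg hh hlam hrow hop p
  rw [← ENNReal.ofReal_toReal (measure_ne_top (boxLaw ι) _)]
  refine ENNReal.ofReal_le_ofReal ?_
  change (boxLaw ι).real _ ≤ _
  have h4 : (0:ℝ) < (1 / 2) ^ (2 * p) := by positivity
  rw [← mul_le_mul_iff_of_pos_left h4]
  refine le_trans (le_trans hmk hb) (le_of_eq ?_)
  rw [← mul_assoc, pow_mul (1 / 2 : ℝ) 2 p, ← mul_pow]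
  ring_nf

end Vale.Agent.Anderson
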