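/- Elementary bound, uniform in the energy, for the discretized singular integral of the
two-dimensional band function. -/
import Mathlib

namespace Vale.Agent.Anderson

open Real Finset

noncomputable def logFactor (N : ℕ) : ℝ := 1 + Real.log N

lemma logFactor_ge_one {N : ℕ} (hN : 1 ≤ N) : 1 ≤ logFactor N := by
  unfold logFactor
  have : (0:ℝ) ≤ Real.log N := Real.log_nonneg (by exact_mod_cast hN)
  linarith

lemma periodic_sum_shift (g : ℤ → ℝ) (N : ℕ) (hg : ∀ m, g (m + N) = g m) (m : ℤ) :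
    ∑ j ∈ range N, g (m + j) = ∑ j ∈ range N, g j := by
  have step : ∀ n : ℤ, ∑ j ∈ range N, g (n + 1 + j) = ∑ j ∈ range N, g (n + j) := by
    intro n
    have h1 := Finset.sum_range_succ (fun j : ℕ => g (n + j)) N
    have h2 := Finset.sum_range_succ' (fun j : ℕ => g (n + j)) N
    rw [h1] at h2
    simp only [Nat.cast_add, Nat.cast_one, Nat.cast_zero, add_zero, hg] at h2
    have : ∀ j : ℕ, n + ((j:ℤ) + 1) = n + 1 + j := fun j => by ring
    simp only [this] at h2
    linarith
  induction m using Int.induction_on with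
  | zero => simp
  | succ n ih => rw [step, ih]
  | pred n ih => rw [← ih, ← step (-(n:ℤ) - 1)]; simp

lemma sum_inv_sin (N : ℕ) (hN : 1 ≤ N) (φ η : ℝ) (hη : 0 < η) (hηN : 1 ≤ η * N) :
    ∑ a ∈ range N, 1 / (|sin (π * a / N - φ)| + η) ≤ 6 * N * logFactor N := by
  have hNr : (0:ℝ) < N := by exact_mod_cast hN
  set g : ℤ → ℝ := fun a => 1 / (|sin (π * a / N - φ)| + η) with hg
  have hper : ∀ a, g (a + N) = g a := by
    intro a
    simp only [hg]
    congr 2
    have : π * ((a + (N:ℤ) : ℤ) : ℝ) / N - φ = π * a / N - φ + π := by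
      push_cast; field_simp; ring
    rw [this, Real.sin_add_pi, abs_neg]
  have hsum : ∑ a ∈ range N, 1 / (|sin (π * a / N - φ)| + η) = ∑ a ∈ range N, g a := by
    simp [hg]
  set s : ℝ := φ * N / π with hs
  set m : ℤ := ⌊s⌋ with hm
  rw [hsum, ← periodic_sum_shift g N hper m]
  set B : ℕ → ℝ := fun i => (N:ℝ) / ((i:ℝ) + 1) with hB
  have hbase : ∀ i : ℕ, 1 / (η + 2 * (i:ℝ) / N) ≤ B i := by
    intro i
    have hi : (0:ℝ) ≤ i := Nat.cast_nonneg i
    simp only [hB]
    rw [div_le_div_iff₀ (by positivity) (by positivity)]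
    have h0 : (N:ℝ) * (η + 2 * (i:ℝ) / N) = η * N + 2 * i := by field_simp
    rw [h0]; linarith
  have hpt : ∀ j ∈ range N, g (m + j) ≤
      (if j = 0 then (N:ℝ) else 0) + B (j - 1) + B (N - 1 - (j - 1) - 1) := by
    intro j hj
    have hjN : j < N := Finset.mem_range.mp hj
    have hB0 : ∀ i, 0 ≤ B i := fun i => by simp only [hB]; positivity
    have e1 := hB0 (j - 1)
    have e2 := hB0 (N - 1 - (j - 1) - 1)
    rcases Nat.eq_zero_or_pos j with hj0 | hj0
    · subst hj0
      have : g (m + (0:ℕ)) ≤ N := by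
        simp only [hg]
        rw [div_le_iff₀ (by positivity)]
        nlinarith [abs_nonneg (sin (π * ((m + (0:ℕ) : ℤ):ℝ) / N - φ))]
      rw [if_pos rfl]
      linarith
    · rw [if_neg (by omega)]
      have hfl := Int.floor_le s
      have hfl2 := Int.lt_floor_add_one s
      rw [← hm] at hfl hfl2
      set x : ℝ := π * ((m + (j:ℤ) : ℤ):ℝ) / N - φ with hx
      have hxe : x = π * (((m:ℝ) - s) + j) / N := by
        rw [hx, hs]; push_cast; field_simp; ring
      have hj1 : (1:ℝ) ≤ j := by exact_mod_cast hj0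
      have hx0 : 0 ≤ x := by
        rw [hxe]; apply div_nonneg (mul_nonneg pi_pos.le (by linarith)) hNr.le
      by_cases hx2 : x ≤ π / 2
      · have h := mul_abs_le_abs_sin (x := x) (by rw [abs_of_nonneg hx0]; exact hx2)
        rw [abs_of_nonneg hx0] at h
        have hlow : 2 * ((j - 1 : ℕ):ℝ) / N ≤ |sin x| := by
          refine le_trans ?_ h
          rw [hxe, Nat.cast_sub (by omega : 1 ≤ j)]
          push_cast
          field_simp
          nlinarith
        have : g (m + j) ≤ B (j - 1) := by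
          refine le_trans ?_ (hbase _)
          simp only [hg, ← hx]
          gcongr 1 / ?_
          linarith
        linarith
      · have hxπ : 0 ≤ π - x := by
          rw [hxe]
          have : ((m:ℝ) - s) + j ≤ N := by
            have : (j:ℝ) ≤ N := by exact_mod_cast hjN.le
            linarith
          rw [sub_nonneg, div_le_iff₀ hNr]
          exact mul_le_mul_of_nonneg_left this pi_pos.le
        have h := mul_abs_le_abs_sin (x := π - x)
          (by rw [abs_of_nonneg hxπ]; linarith)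
        rw [abs_of_nonneg hxπ, Real.sin_pi_sub] at h
        have hidx : N - 1 - (j - 1) - 1 = N - j - 1 := by omega
        have hge : j + 1 ≤ N := hjN
        have hlow : 2 * ((N - j - 1 : ℕ):ℝ) / N ≤ |sin x| := by
          refine le_trans ?_ h
          rw [hxe, Nat.cast_sub (by omega : 1 ≤ N - j), Nat.cast_sub hjN.le]
          push_cast
          field_simp
          nlinarith
        have : g (m + j) ≤ B (N - 1 - (j - 1) - 1) := by
          rw [hidx]
          refine le_trans ?_ (hbase _)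
          simp only [hg, ← hx]
          gcongr 1 / ?_
          linarith
        linarith
  refine le_trans (Finset.sum_le_sum hpt) ?_
  rw [Finset.sum_add_distrib, Finset.sum_add_distrib, Finset.sum_ite_eq' (range N) 0]
  rw [if_pos (Finset.mem_range.mpr (by omega))]
  have hH : ∑ i ∈ range N, B i ≤ N * logFactor N := by
    have h1 : ∑ i ∈ range N, B i = (N:ℝ) * (harmonic N : ℝ) := by
      simp only [hB, harmonic, Rat.cast_sum, Rat.cast_inv, Rat.cast_natCast, Finset.mul_sum]
      refine Finset.sum_congr rfl fun i _ => ?_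
      push_cast
      rw [div_eq_mul_inv]
    rw [h1]
    exact mul_le_mul_of_nonneg_left (harmonic_le_one_add_log N) hNr.le
  have hB0 : ∀ i, 0 ≤ B i := fun i => by simp only [hB]; positivity
  have hA : ∀ (M : ℕ) (f : ℕ → ℝ), (∀ i, 0 ≤ f i) → ∑ j ∈ range M, f (j - 1) ≤
      f 0 + ∑ i ∈ range M, f i := by
    intro M f hf
    cases M with
    | zero => simp [hf]
    | succ k =>
      rw [Finset.sum_range_succ' (fun j => f (j - 1)), Finset.sum_range_succ f k]
      simp only [Nat.add_sub_cancel, Nat.zero_sub]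
      have := hf k
      linarith
  have h1 := hA N B hB0
  have h2 := hA N (fun i => B (N - 1 - i - 1)) (fun i => hB0 _)
  have h2' : ∑ i ∈ range N, B (N - 1 - i - 1) ≤ B 0 + ∑ i ∈ range N, B i := by
    rw [Finset.sum_range_reflect (fun i => B (i - 1)) N]
    exact hA N B hB0
  have hB00 : B 0 = N := by simp [hB]
  have hBb : B (N - 1 - 0 - 1) ≤ N := by
    simp only [hB]
    exact div_le_self hNr.le (by simp)
  have hL : (N:ℝ) * 1 ≤ N * logFactor N :=
    mul_le_mul_of_nonneg_left (logFactor_ge_one hN) hNr.le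
  linarith

lemma cos_sub_cos_abs (θ ψ : ℝ) :
    |cos θ - cos ψ| = 2 * (|sin ((θ - ψ) / 2)| * |sin ((θ + ψ) / 2)|) := by
  rw [Real.cos_sub_cos, abs_mul, abs_mul]
  norm_num
  ring

lemma abs_cos_sub_ge (θ t : ℝ) :
    |cos θ - cos (arccos t)| + max (|t| - 1) 0 ≤ |cos θ - t| := by
  rcases le_or_gt |t| 1 with h | h
  · obtain ⟨h1, h2⟩ := abs_le.mp h
    rw [Real.cos_arccos h1 h2, max_eq_right (by linarith)]
    simp
  · rw [max_eq_left (by linarith)]
    have hc := Real.cos_le_one θ
    have hc' := Real.neg_one_le_cos θ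
    rcases le_or_gt 0 t with ht | ht
    · rw [abs_of_nonneg ht] at h ⊢
      rw [Real.arccos_of_one_le h.le, Real.cos_zero, abs_of_nonpos (by linarith),
        abs_of_nonpos (by linarith)]
      linarith
    · rw [abs_of_neg ht] at h ⊢
      rw [Real.arccos_of_le_neg_one (by linarith), Real.cos_pi, abs_of_nonneg (by linarith),
        abs_of_nonneg (by linarith)]
      linarith

/-- The pair of reciprocals at the two roots of `cos θ = t`. -/
noncomputable def rootPair (θ t η : ℝ) : ℝ :=
  1 / (|sin ((θ - arccos t) / 2)| + η) + 1 / (|sin ((θ + arccos t) / 2)| + η)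

lemma inv_cos_sqrt (θ r η : ℝ) (hη : 0 < η) :
    1 / √(|cos θ - r| + η) ≤ 2 * rootPair θ r √η := by
  unfold rootPair
  set P := |sin ((θ - arccos r) / 2)|
  set Q := |sin ((θ + arccos r) / 2)|
  have hP : 0 ≤ P := abs_nonneg _
  have hQ : 0 ≤ Q := abs_nonneg _
  have hge : 2 * (P * Q) ≤ |cos θ - r| := by
    have := abs_cos_sub_ge θ r
    rw [cos_sub_cos_abs] at this
    linarith [le_max_right (|r| - 1) (0:ℝ)]
  have hs : 0 < √η := Real.sqrt_pos.mpr hη
  have key : ∀ m, 0 ≤ m → m ^ 2 ≤ P * Q → 1 / √(|cos θ - r| + η) ≤ 2 * (1 / (m + √η)) := by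
    intro m hm hmPQ
    have hsq : (m + √η) ^ 2 ≤ 2 ^ 2 * (|cos θ - r| + η) := by
      have := Real.sq_sqrt hη.le
      nlinarith [sq_nonneg (m - √η), abs_nonneg (cos θ - r)]
    have h1 : m + √η ≤ 2 * √(|cos θ - r| + η) := by
      have := Real.sqrt_le_sqrt hsq
      rwa [Real.sqrt_sq (by positivity), Real.sqrt_mul (by norm_num),
        Real.sqrt_sq (by norm_num)] at this
    have h2 : 0 < √(|cos θ - r| + η) := Real.sqrt_pos.mpr (by positivity)
    rw [mul_one_div, div_le_div_iff₀ h2 (by positivity)]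
    linarith
  rcases le_total P Q with h | h
  · have := key P hP (by nlinarith)
    have : 0 ≤ 1 / (Q + √η) := by positivity
    linarith
  · have := key Q hQ (by nlinarith)
    have : 0 ≤ 1 / (P + √η) := by positivity
    linarith

lemma inv_cos (θ t η : ℝ) (hη : 0 < η) (hη1 : η ≤ 1) :
    1 / (|cos θ - t| + η) ≤ 3 / √(abs (|t| - 1) + η) * rootPair θ t η := by
  unfold rootPair
  set ψ := arccos t
  set P := |sin ((θ - ψ) / 2)|
  set Q := |sin ((θ + ψ) / 2)|
  have hP : 0 ≤ P := abs_nonneg _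
  have hQ : 0 ≤ Q := abs_nonneg _
  set e := max (|t| - 1) 0
  have he : 0 ≤ e := le_max_right _ _
  have hge : 2 * (P * Q) + e ≤ |cos θ - t| := by
    have := abs_cos_sub_ge θ t
    rw [cos_sub_cos_abs] at this
    exact this
  set δ := √(1 - t ^ 2) with hδ
  have hδ0 : 0 ≤ δ := Real.sqrt_nonneg _
  have hδ1 : δ ≤ 1 := Real.sqrt_le_one.mpr (by nlinarith)
  have hδPQ : δ ≤ P + Q := by
    have h1 : sin ψ = δ := Real.sin_arccos t
    have h2 : ψ = (θ + ψ) / 2 - (θ - ψ) / 2 := by ring
    rw [← h1]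
    nth_rewrite 1 [h2]
    rw [Real.sin_sub]
    have a1 := abs_le.mp (Real.abs_cos_le_one ((θ - ψ) / 2))
    have a2 := abs_le.mp (Real.abs_cos_le_one ((θ + ψ) / 2))
    have b1 : sin ((θ + ψ) / 2) * cos ((θ - ψ) / 2) ≤ Q := by
      refine le_trans (le_abs_self _) ?_
      rw [abs_mul]
      exact mul_le_of_le_one_right hQ (Real.abs_cos_le_one _)
    have b2 : -(cos ((θ + ψ) / 2) * sin ((θ - ψ) / 2)) ≤ P := by
      refine le_trans (neg_le_abs _) ?_
      rw [abs_mul]
      exact mul_le_of_le_one_left hP (Real.abs_cos_le_one _)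
    linarith
  set s := √(e + η)
  have hs0 : 0 < s := Real.sqrt_pos.mpr (by positivity)
  have hs2 : s ^ 2 = e + η := Real.sq_sqrt (by positivity)
  have hsum : √(abs (|t| - 1) + η) ≤ δ + s := by
    rw [Real.sqrt_le_iff]
    refine ⟨by positivity, ?_⟩
    have : abs (|t| - 1) ≤ δ ^ 2 + e := by
      rcases le_or_gt |t| 1 with h | h
      · rw [abs_of_nonpos (by linarith), hδ, Real.sq_sqrt (by nlinarith [sq_abs t, abs_nonneg t])]
        nlinarith [sq_abs t, abs_nonneg t]
      · rw [abs_of_pos (by linarith)]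
        have : |t| - 1 ≤ e := le_max_left _ _
        nlinarith
    nlinarith
  have key : ∀ m M, 0 ≤ m → m ≤ M → δ ≤ 2 * M → m * M = P * Q →
      1 / (|cos θ - t| + η) ≤ 3 / √(abs (|t| - 1) + η) * (1 / (m + η)) := by
    intro m M hm hmM hδM hPQ
    have hroot : 0 < √(abs (|t| - 1) + η) := Real.sqrt_pos.mpr (by positivity)
    rw [div_mul_div_comm, mul_one, div_le_div_iff₀ (by positivity) (by positivity), one_mul]
    have a1 : δ * m ≤ 2 * M * m := mul_le_mul_of_nonneg_right hδM hm
    have a2 : δ * η ≤ η := mul_le_of_le_one_left hη.le hδ1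
    have a3 : s * m ≤ (e + η + m * M) / 2 := by nlinarith [sq_nonneg (s - m)]
    have a4 : s * η ≤ e + η := by nlinarith [sq_nonneg (s - η)]
    have a5 : √(abs (|t| - 1) + η) * (m + η) ≤ (δ + s) * (m + η) :=
      mul_le_mul_of_nonneg_right hsum (by positivity)
    have hmM0 : 0 ≤ m * M := mul_nonneg hm (le_trans hm hmM)
    nlinarith
  have hc : 0 ≤ 3 / √(abs (|t| - 1) + η) := by positivity
  rw [mul_add]
  rcases le_total P Q with h | h
  · have := key P Q hP h (by linarith) rfl
    have : 0 ≤ 3 / √(abs (|t| - 1) + η) * (1 / (Q + η)) := mul_nonneg hc (by positivity)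
    linarith
  · have := key Q P hQ h (by linarith) (mul_comm _ _)
    have : 0 ≤ 3 / √(abs (|t| - 1) + η) * (1 / (P + η)) := mul_nonneg hc (by positivity)
    linarith

lemma sum_rootPair (N : ℕ) (hN : 1 ≤ N) (t η : ℝ) (hη : 0 < η) (hηN : 1 ≤ η * N) :
    ∑ a ∈ range N, rootPair (2 * π * a / N) t η ≤ 12 * N * logFactor N := by
  unfold rootPair
  rw [Finset.sum_add_distrib]
  have e1 : ∀ a : ℕ, (2 * π * a / N - arccos t) / 2 = π * a / N - arccos t / 2 := fun a => by
    field_simp
  have e2 : ∀ a : ℕ, (2 * π * a / N + arccos t) / 2 = π * a / N - -(arccos t / 2) := fun a => by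
    field_simp; ring
  simp only [e1, e2]
  linarith [sum_inv_sin N hN (arccos t / 2) η hη hηN, sum_inv_sin N hN (-(arccos t / 2)) η hη hηN]

lemma sum_inv_two_cos (N : ℕ) (hN : 1 ≤ N) (t η : ℝ) (hη : 0 < η) (hη1 : η ≤ 1)
    (hηN : 1 ≤ η * N) :
    ∑ a ∈ range N, ∑ b ∈ range N,
      1 / (|cos (2 * π * a / N) + cos (2 * π * b / N) - t| + η) ≤
      1728 * (N:ℝ) ^ 2 * logFactor N ^ 2 := by
  have hNr : (0:ℝ) < N := by exact_mod_cast hN
  have hL : 0 ≤ logFactor N := le_trans zero_le_one (logFactor_ge_one hN)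
  have hsN : 1 ≤ √η * N := by
    refine le_trans hηN (mul_le_mul_of_nonneg_right ?_ hNr.le)
    nlinarith [Real.sq_sqrt hη.le, Real.sqrt_nonneg η, Real.sqrt_le_one.mpr hη1]
  have inner : ∀ a : ℕ, ∑ b ∈ range N,
      1 / (|cos (2 * π * a / N) + cos (2 * π * b / N) - t| + η) ≤
      36 * N * logFactor N * (2 * rootPair (2 * π * a / N) (t - 1) √η +
        2 * rootPair (2 * π * a / N) (t + 1) √η) := by
    intro a
    set u := t - cos (2 * π * a / N) with hu
    have h1 : ∀ b : ℕ, 1 / (|cos (2 * π * a / N) + cos (2 * π * b / N) - t| + η) ≤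
        3 / √(abs (|u| - 1) + η) * rootPair (2 * π * b / N) u η := by
      intro b
      have : cos (2 * π * a / N) + cos (2 * π * b / N) - t = cos (2 * π * b / N) - u := by
        rw [hu]; ring
      rw [this]
      exact inv_cos _ _ _ hη hη1
    refine le_trans (Finset.sum_le_sum fun b _ => h1 b) ?_
    rw [← Finset.mul_sum]
    refine le_trans (mul_le_mul_of_nonneg_left (sum_rootPair N hN u η hη hηN) (by positivity)) ?_
    have hsplit : 1 / √(abs (|u| - 1) + η) ≤
        2 * rootPair (2 * π * a / N) (t - 1) √η + 2 * rootPair (2 * π * a / N) (t + 1) √η := by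
      have p1 := inv_cos_sqrt (2 * π * a / N) (t - 1) η hη
      have p2 := inv_cos_sqrt (2 * π * a / N) (t + 1) η hη
      have n1 : 0 ≤ 1 / √(|cos (2 * π * a / N) - (t - 1)| + η) := by positivity
      have n2 : 0 ≤ 1 / √(|cos (2 * π * a / N) - (t + 1)| + η) := by positivity
      rcases le_or_gt 0 u with h | h
      · rw [abs_of_nonneg h, show |u - 1| = |cos (2 * π * a / N) - (t - 1)| by
          rw [hu, ← abs_neg]; congr 1; ring]
        linarith
      · rw [abs_of_neg h, show |-u - 1| = |cos (2 * π * a / N) - (t + 1)| by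
          rw [hu]; congr 1; ring]
        linarith
    calc 3 / √(abs (|u| - 1) + η) * (12 * N * logFactor N)
        = 36 * N * logFactor N * (1 / √(abs (|u| - 1) + η)) := by ring
      _ ≤ _ := mul_le_mul_of_nonneg_left hsplit (by positivity)
  refine le_trans (Finset.sum_le_sum fun a _ => inner a) ?_
  rw [← Finset.mul_sum, Finset.sum_add_distrib, ← Finset.mul_sum, ← Finset.mul_sum]
  have s1 := sum_rootPair N hN (t - 1) √η (Real.sqrt_pos.mpr hη) hsN
  have s2 := sum_rootPair N hN (t + 1) √η (Real.sqrt_pos.mpr hη) hsN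
  refine le_trans (mul_le_mul_of_nonneg_left
    (show _ ≤ 48 * (N:ℝ) * logFactor N by linarith) (by positivity)) ?_
  exact le_of_eq (by ring)

lemma sum_inv_band_two (N : ℕ) [NeZero N] (t η : ℝ) (hη : 0 < η) (hη1 : η ≤ 1)
    (hηN : 2 ≤ η * N) :
    ∑ a : ZMod N, ∑ b : ZMod N,
      1 / (|2 * cos (2 * π * a.val / N) + 2 * cos (2 * π * b.val / N) - t| + η) ≤
      864 * (N:ℝ) ^ 2 * logFactor N ^ 2 := by
  have hN : 1 ≤ N := Nat.one_le_iff_ne_zero.mpr (NeZero.ne N)
  have conv : ∀ f : ℕ → ℝ, ∑ a : ZMod N, f a.val = ∑ a ∈ range N, f a := by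
    intro f
    obtain ⟨k, rfl⟩ := Nat.exists_eq_add_of_le hN
    refine Finset.sum_bij (fun a _ => a.val) (fun a _ => Finset.mem_range.mpr (ZMod.val_lt a))
      (fun a _ b _ h => ZMod.val_injective _ h) (fun b hb => ⟨(b : ZMod (1 + k)), Finset.mem_univ _,
        ZMod.val_cast_of_lt (Finset.mem_range.mp hb)⟩) (fun a _ => rfl)
  rw [conv (fun a => ∑ b : ZMod N,
      1 / (|2 * cos (2 * π * a / N) + 2 * cos (2 * π * b.val / N) - t| + η))]
  simp only [fun a : ℕ => conv (fun b =>
      1 / (|2 * cos (2 * π * a / N) + 2 * cos (2 * π * b / N) - t| + η))]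
  have h := sum_inv_two_cos N hN (t / 2) (η / 2) (by linarith) (by linarith) (by linarith)
  have e : ∀ a b : ℕ, 1 / (|2 * cos (2 * π * a / N) + 2 * cos (2 * π * b / N) - t| + η) =
      (1 / 2) * (1 / (|cos (2 * π * a / N) + cos (2 * π * b / N) - t / 2| + η / 2)) := by
    intro a b
    have : 2 * cos (2 * π * a / N) + 2 * cos (2 * π * b / N) - t =
        2 * (cos (2 * π * a / N) + cos (2 * π * b / N) - t / 2) := by ring
    rw [this, abs_mul, abs_two]
    field_simp
  simp only [e, ← Finset.mul_sum]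
  linarith

/-- The band function on the discrete torus. -/
noncomputable def band {d N : ℕ} (k : Fin d → ZMod N) : ℝ :=
  ∑ i, 2 * cos (2 * π * (k i).val / N)

lemma sum_inv_band (d N : ℕ) [NeZero N] (E η : ℝ) (hη : 0 < η) (hη1 : η ≤ 1)
    (hηN : 2 ≤ η * N) :
    ∑ k : Fin (d + 2) → ZMod N, 1 / (|band k - E| + η) ≤
      864 * (N:ℝ) ^ (d + 2) * logFactor N ^ 2 := by
  rw [← (Fin.consEquiv fun _ : Fin (d + 2) => ZMod N).sum_comp]
  rw [Fintype.sum_prod_type]
  simp only [← (Fin.consEquiv fun _ : Fin (d + 1) => ZMod N).sum_comp (M := ℝ),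
    Fintype.sum_prod_type]
  have hb : ∀ (a b : ZMod N) (r : Fin d → ZMod N),
      band (Fin.cons a (Fin.cons b r) : Fin (d + 2) → ZMod N) =
        2 * cos (2 * π * a.val / N) + 2 * cos (2 * π * b.val / N) + band r := by
    intro a b r
    unfold band
    rw [Fin.sum_univ_succ, Fin.sum_univ_succ]
    simp [Fin.cons_zero, Fin.cons_succ, add_assoc]
  simp only [Fin.consEquiv, Equiv.coe_fn_mk, hb]
  rw [Finset.sum_congr rfl (fun a _ => Finset.sum_comm), Finset.sum_comm]
  refine le_trans (Finset.sum_le_sum fun r _ => ?_) (b := ∑ _r : Fin d → ZMod N,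
    864 * (N:ℝ) ^ 2 * logFactor N ^ 2) ?_
  · have h := sum_inv_band_two N (E - band r) η hη hη1 hηN
    refine le_trans (le_of_eq ?_) h
    refine Finset.sum_congr rfl fun a _ => Finset.sum_congr rfl fun b _ => ?_
    congr 3
    ring
  · simp only [Finset.sum_const, Finset.card_univ, Fintype.card_fun, ZMod.card, Fintype.card_fin,
      nsmul_eq_mul, Nat.cast_pow]
    exact le_of_eq (by ring)

end Vale.Agent.Anderson
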