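/- A deterministic resolvent bound on the discrete torus, given smallness of the dressed
random matrix. -/
import Mathlib
import Vale.Agent.Anderson.LevelSum
import Vale.Agent.Anderson.Khintchine

namespace Vale.Agent.Anderson

open Matrix Finset
open scoped ComplexConjugate

variable {d N : ℕ} [NeZero N]

/-- The Fourier phase. -/
noncomputable def phase (k x : Fin d → ZMod N) : ℂ := ZMod.stdAddChar (∑ i, k i * x i)

lemma phase_add (k x y : Fin d → ZMod N) : phase k (x + y) = phase k x * phase k y := by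
  unfold phase
  rw [← AddChar.map_add_eq_mul, ← Finset.sum_add_distrib]
  congr 1
  exact Finset.sum_congr rfl fun i _ => by simp [mul_add]

lemma phase_neg (k x : Fin d → ZMod N) : phase k (-x) = conj (phase k x) := by
  unfold phase
  simp only [Pi.neg_apply, mul_neg, Finset.sum_neg_distrib, AddChar.map_neg_eq_conj]

lemma norm_phase (k x : Fin d → ZMod N) : ‖phase k x‖ = 1 := AddChar.norm_apply _ _

lemma addChar_sum {A : Type*} [AddCommMonoid A] (ψ : AddChar A ℂ) {ι : Type*} (s : Finset ι)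
    (f : ι → A) : ψ (∑ i ∈ s, f i) = ∏ i ∈ s, ψ (f i) := by
  classical
  induction s using Finset.induction_on with
  | empty => simp
  | insert a s ha ih => rw [Finset.sum_insert ha, Finset.prod_insert ha, AddChar.map_add_eq_mul, ih]

lemma phase_sum (x : Fin d → ZMod N) :
    ∑ k : Fin d → ZMod N, phase k x = if x = 0 then ((N:ℂ) ^ d) else 0 := by
  have h1 : ∀ k, phase k x = ∏ i, ZMod.stdAddChar (k i * x i) := fun k => addChar_sum _ _ _
  simp only [h1]
  rw [← Fintype.prod_sum fun i (a : ZMod N) => (ZMod.stdAddChar (a * x i) : ℂ)]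
  simp only [fun i : Fin d => AddChar.sum_mulShift (x i) (ZMod.isPrimitive_stdAddChar N), ZMod.card]
  by_cases hx : x = 0
  · simp [hx]
  · rw [if_neg hx]
    obtain ⟨i, hi⟩ := Function.ne_iff.mp hx
    apply Finset.prod_eq_zero (Finset.mem_univ i)
    rw [if_neg]
    · simp
    · simpa using hi

/-- The unitary discrete Fourier matrix. -/
noncomputable def fourierMat (d N : ℕ) [NeZero N] :
    Matrix (Fin d → ZMod N) (Fin d → ZMod N) ℂ :=
  fun k x => ((Real.sqrt ((N:ℝ) ^ d))⁻¹ : ℝ) * conj (phase k x)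

lemma fourierMat_unitary : (fourierMat d N)ᴴ * fourierMat d N = 1 := by
  ext x y
  rw [Matrix.mul_apply]
  have h : ∀ k, (fourierMat d N)ᴴ x k * fourierMat d N k y =
      ((((N:ℝ) ^ d)⁻¹ : ℝ) : ℂ) * phase k (x - y) := by
    intro k
    rw [conjTranspose_apply]
    unfold fourierMat
    rw [sub_eq_add_neg, phase_add, phase_neg, Complex.star_def,
      map_mul, Complex.conj_ofReal, Complex.conj_conj]
    have hpos : (0:ℝ) ≤ (N:ℝ) ^ d := by positivity
    have : (((N:ℝ) ^ d)⁻¹ : ℝ) = (Real.sqrt ((N:ℝ) ^ d))⁻¹ * (Real.sqrt ((N:ℝ) ^ d))⁻¹ := by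
      rw [← mul_inv, Real.mul_self_sqrt hpos]
    rw [this, Complex.ofReal_mul]
    ring
  simp only [h, ← Finset.mul_sum, phase_sum, sub_eq_zero, Matrix.one_apply]
  split
  · push_cast
    rw [inv_mul_cancel₀]
    exact pow_ne_zero _ (Nat.cast_ne_zero.mpr (NeZero.ne N))
  · simp

/-- A Fourier multiplier. -/
noncomputable def fmult (c : (Fin d → ZMod N) → ℂ) : Matrix (Fin d → ZMod N) (Fin d → ZMod N) ℂ :=
  (fourierMat d N)ᴴ * diagonal c * fourierMat d N

lemma fmult_mul (c c' : (Fin d → ZMod N) → ℂ) : fmult c * fmult c' = fmult (c * c') := by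
  have h : fourierMat d N * (fourierMat d N)ᴴ = 1 := mul_eq_one_comm.mp fourierMat_unitary
  unfold fmult
  calc (fourierMat d N)ᴴ * diagonal c * fourierMat d N *
        ((fourierMat d N)ᴴ * diagonal c' * fourierMat d N)
      = (fourierMat d N)ᴴ * diagonal c * (fourierMat d N * (fourierMat d N)ᴴ) *
          diagonal c' * fourierMat d N := by simp only [Matrix.mul_assoc]
    _ = (fourierMat d N)ᴴ * (diagonal c * diagonal c') * fourierMat d N := by
        rw [h, Matrix.mul_one]; simp only [Matrix.mul_assoc]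
    _ = _ := by rw [diagonal_mul_diagonal]; rfl

lemma fmult_one : fmult (1 : (Fin d → ZMod N) → ℂ) = 1 := by
  simp [fmult, fourierMat_unitary]

lemma fmult_hermitian (b : (Fin d → ZMod N) → ℝ) : (fmult fun k => (b k : ℂ)).IsHermitian := by
  unfold fmult Matrix.IsHermitian
  rw [conjTranspose_mul, conjTranspose_mul, conjTranspose_conjTranspose, diagonal_conjTranspose,
    Matrix.mul_assoc]
  congr
  funext k
  simp [Complex.conj_ofReal]

lemma fmult_op (c : (Fin d → ZMod N) → ℂ) {h : ℝ} (hc : ∀ k, ‖c k‖ ^ 2 ≤ h)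
    (u : (Fin d → ZMod N) → ℂ) :
    ∑ x, ‖(fmult c *ᵥ u) x‖ ^ 2 ≤ h * ∑ x, ‖u x‖ ^ 2 := by
  rw [fmult, ← mulVec_mulVec, ← mulVec_mulVec,
    isometry_sum_sq (by rw [conjTranspose_conjTranspose]; exact mul_eq_one_comm.mp fourierMat_unitary),
    ← isometry_sum_sq fourierMat_unitary u, Finset.mul_sum]
  refine Finset.sum_le_sum fun k _ => ?_
  rw [mulVec_diagonal, norm_mul, mul_pow]
  exact mul_le_mul_of_nonneg_right (hc k) (sq_nonneg _)

lemma fmult_row (b : (Fin d → ZMod N) → ℝ) (x : Fin d → ZMod N) :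
    ∑ y, ‖(fmult fun k => (b k : ℂ)) y x‖ ^ 2 = ((N:ℝ) ^ d)⁻¹ * ∑ k, b k ^ 2 := by
  have h := (fmult_hermitian b).eq
  have hsq : (fmult fun k => (b k : ℂ)) * (fmult fun k => (b k : ℂ)) =
      fmult fun k => ((b k ^ 2 : ℝ) : ℂ) := by
    rw [fmult_mul]; congr; funext k; simp [sq]
  apply Complex.ofReal_injective
  have hL : ((∑ y, ‖(fmult fun k => (b k : ℂ)) y x‖ ^ 2 : ℝ) : ℂ) =
      ((fmult fun k => (b k : ℂ))ᴴ * fmult fun k => (b k : ℂ)) x x := by
    rw [Matrix.mul_apply]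
    push_cast
    exact Finset.sum_congr rfl fun y _ => by
      rw [conjTranspose_apply]; exact (Complex.conj_mul' _).symm
  rw [hL, h, hsq]
  unfold fmult
  rw [conj_diag_apply (fourierMat d N) (fun k => b k ^ 2) x, Finset.mul_sum]
  congr 1
  refine Finset.sum_congr rfl fun k _ => ?_
  rw [fourierMat, norm_mul, Complex.norm_real, Complex.norm_conj, norm_phase, mul_one,
    Real.norm_eq_abs, sq_abs, inv_pow, Real.sq_sqrt (by positivity)]
  ring

/-- The symbol of `H₀ - z`. -/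
noncomputable def symb (E η : ℝ) (k : Fin d → ZMod N) : ℂ :=
  (band k : ℂ) - ((E : ℂ) + (η : ℂ) * Complex.I)

lemma symb_re (E η : ℝ) (k : Fin d → ZMod N) : (symb E η k).re = band k - E := by simp [symb]
lemma symb_im (E η : ℝ) (k : Fin d → ZMod N) : (symb E η k).im = -η := by simp [symb]

lemma symb_norm_ge (E η : ℝ) (hη : 0 ≤ η) (k : Fin d → ZMod N) :
    (|band k - E| + η) / 2 ≤ ‖symb E η k‖ ∧ η ≤ ‖symb E η k‖ := by
  have h1 := Complex.abs_re_le_norm (symb E η k)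
  have h2 := Complex.abs_im_le_norm (symb E η k)
  rw [symb_re] at h1
  rw [symb_im, abs_neg, abs_of_nonneg hη] at h2
  exact ⟨by linarith, h2⟩

/-- The square root of the absolute value of the free resolvent. -/
noncomputable def sqrtFree (d N : ℕ) [NeZero N] (E η : ℝ) :
    Matrix (Fin d → ZMod N) (Fin d → ZMod N) ℂ :=
  fmult fun k => (((Real.sqrt ‖symb E η k‖)⁻¹ : ℝ) : ℂ)

lemma sqrtFree_hermitian (E η : ℝ) : (sqrtFree d N E η).IsHermitian := fmult_hermitian _

lemma sqrtFree_op (E η : ℝ) (hη : 0 < η) (u : (Fin d → ZMod N) → ℂ) :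
    ∑ x, ‖(sqrtFree d N E η *ᵥ u) x‖ ^ 2 ≤ η⁻¹ * ∑ x, ‖u x‖ ^ 2 := by
  refine fmult_op _ (fun k => ?_) u
  rw [Complex.norm_real, Real.norm_eq_abs, sq_abs, inv_pow, Real.sq_sqrt (norm_nonneg _)]
  exact inv_anti₀ hη (symb_norm_ge E η hη.le k).2

lemma sqrtFree_row (d N : ℕ) [NeZero N] (E η : ℝ) (hη : 0 < η) (hη1 : η ≤ 1)
    (hηN : 2 ≤ η * N) (x : Fin (d + 2) → ZMod N) :
    ∑ y, ‖sqrtFree (d + 2) N E η y x‖ ^ 2 ≤ 1728 * logFactor N ^ 2 := by
  rw [sqrtFree, fmult_row]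
  have h1 : ∀ k : Fin (d + 2) → ZMod N,
      ((Real.sqrt ‖symb E η k‖)⁻¹) ^ 2 ≤ 2 * (1 / (|band k - E| + η)) := by
    intro k
    rw [inv_pow, Real.sq_sqrt (norm_nonneg _), mul_one_div, ← one_div,
      div_le_div_iff₀ (lt_of_lt_of_le hη (symb_norm_ge E η hη.le k).2) (by positivity)]
    linarith [(symb_norm_ge E η hη.le k).1]
  have h2 := sum_inv_band d N E η hη hη1 hηN
  have hpos : (0:ℝ) < (N:ℝ) ^ (d + 2) := pow_pos (Nat.cast_pos.mpr (NeZero.pos N)) _
  rw [inv_mul_le_iff₀ hpos]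
  refine le_trans (Finset.sum_le_sum fun k _ => h1 k) ?_
  rw [← Finset.mul_sum]
  linarith

lemma band_eq_phase (k : Fin d → ZMod N) :
    ((band k : ℝ) : ℂ) = ∑ i, (phase k (Pi.single i 1) + phase k (-Pi.single i 1)) := by
  unfold band
  push_cast
  refine Finset.sum_congr rfl fun i _ => ?_
  rw [phase_neg, Complex.add_conj]
  have : phase k (Pi.single i 1) = ZMod.stdAddChar (k i) := by
    unfold phase
    congr 1
    simp [Pi.single_apply, mul_ite]
  rw [this, ZMod.stdAddChar_apply, ZMod.toCircle_eq_circleExp, Circle.coe_exp,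
    Complex.exp_ofReal_mul_I_re]
  push_cast
  congr 2
  ring

lemma fourier_shift (φ : (Fin d → ZMod N) → ℂ) (a : Fin d → ZMod N) (k : Fin d → ZMod N) :
    ∑ x, fourierMat d N k x * φ (x + a) = phase k a * (fourierMat d N *ᵥ φ) k := by
  rw [mulVec, dotProduct, Finset.mul_sum]
  conv_rhs => rw [← Equiv.sum_comp (Equiv.addRight a)]
  refine Finset.sum_congr rfl fun x _ => ?_
  simp only [Equiv.coe_addRight, fourierMat, phase_add, map_mul]
  have h : phase k a * conj (phase k a) = 1 := by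
    rw [Complex.mul_conj', norm_phase]; simp
  linear_combination (-((((Real.sqrt ((N:ℝ) ^ d))⁻¹ : ℝ) : ℂ) * conj (phase k x) * φ (x + a))) * h

/-- Nearest neighbour hopping on the torus. -/
noncomputable def torusHop (φ : (Fin d → ZMod N) → ℂ) (x : Fin d → ZMod N) : ℂ :=
  ∑ i, (φ (x + Pi.single i 1) + φ (x + -Pi.single i 1))

lemma fmult_symb_mulVec (E η : ℝ) (φ : (Fin d → ZMod N) → ℂ) :
    fmult (symb E η) *ᵥ φ = fun x => torusHop φ x - ((E : ℂ) + (η : ℂ) * Complex.I) * φ x := by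
  have key : fourierMat d N *ᵥ (fun x => torusHop φ x - ((E : ℂ) + (η : ℂ) * Complex.I) * φ x) =
      diagonal (symb E η) *ᵥ (fourierMat d N *ᵥ φ) := by
    funext k
    rw [mulVec_diagonal, symb, band_eq_phase, sub_mul, Finset.sum_mul]
    simp only [mulVec, dotProduct, mul_sub, Finset.sum_sub_distrib, Finset.mul_sum, torusHop]
    congr 1
    · rw [Finset.sum_comm]
      refine Finset.sum_congr rfl fun i _ => ?_
      simp only [mul_add, Finset.sum_add_distrib, add_mul]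
      rw [fourier_shift, fourier_shift]
      simp only [mulVec, dotProduct, Finset.mul_sum]
    · exact Finset.sum_congr rfl fun x _ => by ring
  rw [fmult, ← mulVec_mulVec, ← mulVec_mulVec, ← key, mulVec_mulVec, fourierMat_unitary,
    one_mulVec]

lemma sum_sq_add_le {ι : Type*} [Fintype ι] (a b : ι → ℂ) :
    Real.sqrt (∑ i, ‖a i + b i‖ ^ 2) ≤
      Real.sqrt (∑ i, ‖a i‖ ^ 2) + Real.sqrt (∑ i, ‖b i‖ ^ 2) := by
  have h := norm_add_le (WithLp.toLp 2 a : EuclideanSpace ℂ ι) (WithLp.toLp 2 b)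
  simp only [EuclideanSpace.norm_eq, WithLp.ofLp_add] at h
  exact h

/-- If the dressed potential is small then every solution of the torus resolvent equation with
source `δ₀ + r` is bounded at the origin. -/
theorem torus_bound (d N : ℕ) [NeZero N] (E η : ℝ) (hη : 0 < η) (hη1 : η ≤ 1)
    (hηN : 2 ≤ η * N) (v : (Fin (d + 2) → ZMod N) → ℝ)
    (hsmall : ∀ u, ∑ i, ‖(randMat (sqrtFree (d + 2) N E η) v *ᵥ u) i‖ ^ 2 ≤
      1 / 4 * ∑ i, ‖u i‖ ^ 2)
    (φ r : (Fin (d + 2) → ZMod N) → ℂ) (ρ : ℝ) (hr : ∑ x, ‖r x‖ ^ 2 ≤ ρ)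
    (heq : ∀ x, torusHop φ x + (v x : ℂ) * φ x - ((E : ℂ) + (η : ℂ) * Complex.I) * φ x =
      (Pi.single 0 1 : (Fin (d + 2) → ZMod N) → ℂ) x + r x) :
    ‖φ 0‖ ≤ 2 * Real.sqrt (1728 * logFactor N ^ 2) *
      (Real.sqrt (1728 * logFactor N ^ 2) + Real.sqrt (η⁻¹ * ρ)) := by
  set g := 1728 * logFactor N ^ 2
  set B := sqrtFree (d + 2) N E η with hB
  set w : (Fin (d + 2) → ZMod N) → ℝ := fun k => (Real.sqrt ‖symb E η k‖)⁻¹ with hw
  set U := fmult (fun k : Fin (d + 2) → ZMod N => (‖symb E η k‖ : ℂ) / symb E η k) with hU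
  set V := diagonal (fun x => (v x : ℂ)) with hV
  set f : (Fin (d + 2) → ZMod N) → ℂ := Pi.single 0 1 + r with hf
  have hm : ∀ k : Fin (d + 2) → ZMod N, symb E η k ≠ 0 := fun k h => by
    have := (symb_norm_ge E η hη.le k).2
    rw [h, norm_zero] at this; linarith
  have hinv : B * U * B * fmult (symb E η) = 1 := by
    rw [hB, sqrtFree, hU, fmult_mul, fmult_mul, fmult_mul, ← fmult_one]
    congr 1
    funext k
    simp only [Pi.mul_apply, Pi.one_apply]
    have hs : Real.sqrt ‖symb E η k‖ ^ 2 = ‖symb E η k‖ := Real.sq_sqrt (norm_nonneg _)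
    have hs0 : (Real.sqrt ‖symb E η k‖ : ℂ) ≠ 0 :=
      Complex.ofReal_ne_zero.mpr (Real.sqrt_ne_zero'.mpr (norm_pos_iff.mpr (hm k)))
    have := hm k
    push_cast
    field_simp
    exact_mod_cast hs.symm
  have hres : fmult (symb E η) *ᵥ φ = f - V *ᵥ φ := by
    rw [fmult_symb_mulVec]
    funext x
    rw [Pi.sub_apply, hV, mulVec_diagonal, hf, Pi.add_apply, ← heq x]
    ring
  set ψ := U *ᵥ (B *ᵥ (f - V *ᵥ φ)) with hψ
  have hφ : φ = B *ᵥ ψ := by
    calc φ = (B * U * B * fmult (symb E η)) *ᵥ φ := by rw [hinv, one_mulVec]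
      _ = _ := by rw [← mulVec_mulVec, hres, ← mulVec_mulVec, ← mulVec_mulVec]
  have hUop : ∀ u, ∑ x, ‖(U *ᵥ u) x‖ ^ 2 ≤ 1 * ∑ x, ‖u x‖ ^ 2 := fun u => by
    refine fmult_op _ (fun k => ?_) u
    rw [norm_div, Complex.norm_real, norm_norm, div_self (norm_ne_zero_iff.mpr (hm k))]
    norm_num
  set Nm : ((Fin (d + 2) → ZMod N) → ℂ) → ℝ := fun u => Real.sqrt (∑ x, ‖u x‖ ^ 2) with hNm
  have h1 : Nm ψ ≤ Nm (B *ᵥ f) + 1 / 2 * Nm ψ := by
    have e : B *ᵥ (f - V *ᵥ φ) = fun x => (B *ᵥ f) x + (-(randMat B v *ᵥ ψ)) x := by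
      rw [hφ, randMat, mulVec_sub, ← hV]
      funext x
      simp only [Pi.sub_apply, Pi.neg_apply, ← mulVec_mulVec, sub_eq_add_neg]
    have a1 : Nm ψ ≤ Nm (B *ᵥ (f - V *ᵥ φ)) :=
      Real.sqrt_le_sqrt (le_trans (hUop _) (by rw [one_mul]))
    refine le_trans a1 ?_
    rw [e]
    refine le_trans (sum_sq_add_le _ _) ?_
    refine add_le_add le_rfl ?_
    simp only [Pi.neg_apply, norm_neg]
    calc Real.sqrt (∑ i, ‖(randMat B v *ᵥ ψ) i‖ ^ 2)
        ≤ Real.sqrt ((1 / 2) ^ 2 * ∑ i, ‖ψ i‖ ^ 2) :=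
          Real.sqrt_le_sqrt (by norm_num; linarith [hsmall ψ])
      _ = 1 / 2 * Nm ψ := by
          rw [Real.sqrt_mul (by positivity), Real.sqrt_sq (by norm_num)]
  have hrow : ∀ x, ∑ y, ‖B y x‖ ^ 2 ≤ g := fun x => sqrtFree_row d N E η hη hη1 hηN x
  have h2 : Nm (B *ᵥ f) ≤ Real.sqrt g + Real.sqrt (η⁻¹ * ρ) := by
    have e : B *ᵥ f = fun x => B x 0 + (B *ᵥ r) x := by
      rw [hf, mulVec_add, mulVec_single_one]; rfl
    rw [e]
    refine le_trans (sum_sq_add_le _ _) (add_le_add (Real.sqrt_le_sqrt (hrow 0))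
      (Real.sqrt_le_sqrt (le_trans (sqrtFree_op E η hη r)
        (mul_le_mul_of_nonneg_left hr (by positivity)))))
  have h3 : ‖φ 0‖ ≤ Real.sqrt g * Nm ψ := by
    rw [hφ, mulVec, dotProduct]
    refine le_trans (norm_sum_le _ _) ?_
    simp only [norm_mul]
    refine le_trans (Real.sum_mul_le_sqrt_mul_sqrt _ _ _) ?_
    refine mul_le_mul_of_nonneg_right (Real.sqrt_le_sqrt (le_trans (le_of_eq ?_) (hrow 0)))
      (Real.sqrt_nonneg _)
    refine Finset.sum_congr rfl fun y _ => ?_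
    rw [← (hB ▸ sqrtFree_hermitian E η : B.IsHermitian).apply 0 y, norm_star]
  have hg0 : 0 ≤ Real.sqrt g := Real.sqrt_nonneg _
  nlinarith

end Vale.Agent.Anderson
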