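/- The Anderson operator on `ℓ²(ℤ^d)` and restriction of resolvent equations to a torus. -/
import Mathlib
import Vale.Agent.Anderson.Torus

namespace Vale.Agent.Anderson

open Finset
open scoped ComplexConjugate InnerProductSpace

/-- Sites. -/
abbrev Lat (d : ℕ) := Fin d → ℤ

/-- The Hilbert space `ℓ²(ℤ^d)`. -/
noncomputable abbrev L2Lat (d : ℕ) := lp (fun _ : Lat d => ℂ) 2

variable {d : ℕ}

lemma normSq_eq_tsum (u : L2Lat d) : ‖u‖ ^ 2 = ∑' y, ‖u y‖ ^ 2 := by
  have := lp.norm_rpow_eq_tsum (p := 2) (by norm_num) u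
  simpa using this

lemma summable_normSq (u : L2Lat d) : Summable fun y => ‖u y‖ ^ 2 := by
  simpa using (lp.memℓp u).summable (by norm_num)

lemma sum_sq_shift_le (u : L2Lat d) {κ : Type*} [Fintype κ] (f : κ → Lat d)
    (hf : Function.Injective f) : ∑ k, ‖u (f k)‖ ^ 2 ≤ ‖u‖ ^ 2 := by
  rw [normSq_eq_tsum, ← Finset.sum_image (f := fun y => ‖u y‖ ^ 2) fun a _ b _ h => hf h]
  exact (summable_normSq u).sum_le_tsum _ fun i _ => sq_nonneg _

lemma memlp_shift (u : L2Lat d) (a : Lat d) : Memℓp (fun y => u (y + a)) 2 := by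
  apply memℓp_gen
  have := (Equiv.addRight a).summable_iff.2 (summable_normSq u)
  simpa [Function.comp_def] using this

/-- Translation. -/
noncomputable def shiftCLM (a : Lat d) : L2Lat d →L[ℂ] L2Lat d :=
  LinearMap.mkContinuous
    { toFun := fun u => ⟨fun y => u (y + a), memlp_shift u a⟩
      map_add' := fun u w => rfl
      map_smul' := fun c u => rfl }
    1 fun u => by
      rw [one_mul]
      refine le_of_eq ?_
      rw [← sq_eq_sq₀ (norm_nonneg _) (norm_nonneg _), normSq_eq_tsum, normSq_eq_tsum]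
      exact (Equiv.addRight a).tsum_eq (fun y => ‖u y‖ ^ 2)

@[simp] lemma shiftCLM_apply (a : Lat d) (u : L2Lat d) (y : Lat d) :
    shiftCLM a u y = u (y + a) := rfl

lemma memlp_mult (v : Lat d → ℝ) (hv : ∀ y, |v y| ≤ 1) (u : L2Lat d) :
    Memℓp (fun y => (v y : ℂ) * u y) 2 :=
  (lp.memℓp u).mono' fun y => by
    rw [norm_mul, Complex.norm_real]
    exact mul_le_of_le_one_left (norm_nonneg _) (hv y)

/-- Multiplication by a potential of size at most one. -/
noncomputable def multCLM (v : Lat d → ℝ) (hv : ∀ y, |v y| ≤ 1) : L2Lat d →L[ℂ] L2Lat d :=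
  LinearMap.mkContinuous
    { toFun := fun u => ⟨fun y => (v y : ℂ) * u y, memlp_mult v hv u⟩
      map_add' := fun u w => by ext y; change (v y : ℂ) * (u y + w y) = (v y : ℂ) * u y + (v y : ℂ) * w y; ring
      map_smul' := fun c u => by ext y; change (v y : ℂ) * (c * u y) = c * ((v y : ℂ) * u y); ring }
    1 fun u => by
      rw [one_mul, ← sq_le_sq₀ (norm_nonneg _) (norm_nonneg _), normSq_eq_tsum, normSq_eq_tsum]
      refine (summable_normSq _).tsum_le_tsum (fun y => ?_) (summable_normSq u)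
      change ‖(v y : ℂ) * u y‖ ^ 2 ≤ _
      rw [norm_mul, Complex.norm_real, mul_pow, Real.norm_eq_abs]
      exact mul_le_of_le_one_left (sq_nonneg _) (pow_le_one₀ (abs_nonneg _) (hv y))

@[simp] lemma multCLM_apply (v : Lat d → ℝ) (hv : ∀ y, |v y| ≤ 1) (u : L2Lat d) (y : Lat d) :
    multCLM v hv u y = (v y : ℂ) * u y := rfl

/-- The operator hopping plus potential. -/
noncomputable def schrodingerCLM (v : Lat d → ℝ) (hv : ∀ y, |v y| ≤ 1) :
    L2Lat d →L[ℂ] L2Lat d :=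
  (∑ i : Fin d, (shiftCLM (Pi.single i 1) + shiftCLM (-Pi.single i 1))) + multCLM v hv

/-- The equation `((hopping + v) - z) u = w`, pointwise. -/
def SolvesEq (v : Lat d → ℝ) (z : ℂ) (u : L2Lat d) (w : Lat d → ℂ) : Prop :=
  ∀ y : Lat d, (∑ i : Fin d, (u (y + Pi.single i 1) + u (y - Pi.single i 1))) +
    (v y : ℂ) * u y - z * u y = w y

lemma schrodingerCLM_apply (v : Lat d → ℝ) (hv : ∀ y, |v y| ≤ 1) (u : L2Lat d) (y : Lat d) :
    schrodingerCLM v hv u y =
      (∑ i : Fin d, (u (y + Pi.single i 1) + u (y - Pi.single i 1))) + (v y : ℂ) * u y := by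
  have hsum : ∀ (s : Finset (Fin d)) (f : Fin d → L2Lat d),
      ((∑ i ∈ s, f i : L2Lat d) : Lat d → ℂ) y = ∑ i ∈ s, f i y := by
    intro s f
    induction s using Finset.induction_on with
    | empty => simp only [Finset.sum_empty, lp.coeFn_zero, Pi.zero_apply]
    | insert a s ha ih =>
      rw [Finset.sum_insert ha, Finset.sum_insert ha, lp.coeFn_add, Pi.add_apply, ih]
  rw [schrodingerCLM, _root_.add_apply, lp.coeFn_add, Pi.add_apply, _root_.sum_apply, hsum,
    multCLM_apply]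
  congr 1

lemma inner_shift (a : Lat d) (u w : L2Lat d) :
    ⟪shiftCLM a u, w⟫_ℂ = ⟪u, shiftCLM (-a) w⟫_ℂ := by
  rw [lp.inner_eq_tsum, lp.inner_eq_tsum,
    ← (Equiv.addRight a).tsum_eq (fun y => ⟪u y, shiftCLM (-a) w y⟫_ℂ)]
  exact tsum_congr fun y => by simp

lemma schrodingerCLM_symm (v : Lat d → ℝ) (hv : ∀ y, |v y| ≤ 1) (u w : L2Lat d) :
    ⟪schrodingerCLM v hv u, w⟫_ℂ = ⟪u, schrodingerCLM v hv w⟫_ℂ := by
  simp only [schrodingerCLM, _root_.add_apply, _root_.sum_apply, inner_add_left, inner_add_right,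
    sum_inner, inner_sum, inner_shift, neg_neg]
  congr 1
  · exact Finset.sum_congr rfl fun i _ => add_comm _ _
  · rw [lp.inner_eq_tsum, lp.inner_eq_tsum]
    exact tsum_congr fun y => by simp; ring

lemma schrodingerCLM_norm_le (v : Lat d → ℝ) (hv : ∀ y, |v y| ≤ 1) (u : L2Lat d) :
    ‖schrodingerCLM v hv u‖ ≤ (2 * d + 1 : ℝ) * ‖u‖ := by
  simp only [schrodingerCLM, _root_.add_apply, _root_.sum_apply]
  have hs : ∀ a : Lat d, ‖shiftCLM a u‖ ≤ ‖u‖ := fun a =>
    le_trans ((shiftCLM a).le_opNorm u)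
      (mul_le_of_le_one_left (norm_nonneg _) (LinearMap.mkContinuous_norm_le _ zero_le_one _))
  refine le_trans (norm_add_le _ _) ?_
  have h1 : ‖∑ i : Fin d, (shiftCLM (Pi.single i 1) u + shiftCLM (-Pi.single i 1) u)‖ ≤
      ∑ _i : Fin d, (‖u‖ + ‖u‖) :=
    le_trans (norm_sum_le _ _) (Finset.sum_le_sum fun i _ =>
      le_trans (norm_add_le _ _) (add_le_add (hs _) (hs _)))
  have h2 : ‖multCLM v hv u‖ ≤ ‖u‖ :=
    le_trans ((multCLM v hv).le_opNorm u)
      (mul_le_of_le_one_left (norm_nonneg _) (LinearMap.mkContinuous_norm_le _ zero_le_one _))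
  rw [Finset.sum_const, Finset.card_univ, Fintype.card_fin, nsmul_eq_mul] at h1
  linarith

lemma solvesEq_iff (v : Lat d → ℝ) (hv : ∀ y, |v y| ≤ 1) (z : ℂ) (u : L2Lat d) (w : L2Lat d) :
    SolvesEq v z u w ↔ schrodingerCLM v hv u - z • u = w := by
  constructor
  · intro h
    ext y
    simp only [lp.coeFn_sub, lp.coeFn_smul, Pi.sub_apply, Pi.smul_apply, smul_eq_mul,
      schrodingerCLM_apply]
    exact h y
  · intro h y
    rw [← h]
    simp only [lp.coeFn_sub, lp.coeFn_smul, Pi.sub_apply, Pi.smul_apply, smul_eq_mul,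
      schrodingerCLM_apply]

lemma exists_resolvent (v : Lat d → ℝ) (hv : ∀ y, |v y| ≤ 1) (z : ℂ) (hz : z.im ≠ 0)
    (w : L2Lat d) : ∃ u : L2Lat d, SolvesEq v z u w := by
  have hsa : IsSelfAdjoint (schrodingerCLM v hv) :=
    ContinuousLinearMap.isSelfAdjoint_iff_isSymmetric.mpr (schrodingerCLM_symm v hv)
  have hu : IsUnit (algebraMap ℂ (L2Lat d →L[ℂ] L2Lat d) z - schrodingerCLM v hv) := by
    by_contra h
    apply hz
    have hmem : z ∈ spectrum ℂ (schrodingerCLM v hv) := h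
    rw [hsa.mem_spectrum_eq_re hmem]
    simp
  obtain ⟨A, hA⟩ := hu
  refine ⟨-((↑A⁻¹ : L2Lat d →L[ℂ] L2Lat d) w), (solvesEq_iff v hv z _ w).mpr ?_⟩
  have h : ((A : L2Lat d →L[ℂ] L2Lat d) * (↑A⁻¹ : L2Lat d →L[ℂ] L2Lat d)) w = w := by
    rw [Units.mul_inv]; rfl
  rw [mul_apply_eq_comp, hA] at h
  simp only [_root_.sub_apply, Algebra.algebraMap_eq_smul_one, _root_.smul_apply,
    one_apply_eq_self] at h
  rw [map_neg, smul_neg]
  linear_combination (norm := abel) h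

lemma single_le (x : Lat d) (u : L2Lat d) :
    ⟪u, (lp.single 2 x 1 : L2Lat d)⟫_ℂ = conj (u x) := by
  rw [lp.inner_single_right]; simp

lemma im_bound (v : Lat d → ℝ) (hv : ∀ y, |v y| ≤ 1) {E η : ℝ} (hη : 0 < η) {x : Lat d}
    {u : L2Lat d} (hu : SolvesEq v ((E:ℂ) + (η:ℂ) * Complex.I) u (lp.single 2 x 1 : L2Lat d)) :
    η * ‖u‖ ^ 2 ≤ ‖u x‖ ∧ η * ‖u‖ ≤ 1 ∧ (|E| - (2 * d + 1)) * ‖u‖ ≤ 1 := by
  have h := (solvesEq_iff v hv _ u _).mp hu
  set H := schrodingerCLM v hv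
  have hreal : (⟪u, H u⟫_ℂ).im = 0 := by
    have := inner_conj_symm (𝕜 := ℂ) u (H u)
    rw [schrodingerCLM_symm v hv u u] at this
    exact Complex.conj_eq_iff_im.mp this
  have e : ⟪u, H u⟫_ℂ - ((E:ℂ) + (η:ℂ) * Complex.I) * ((‖u‖ ^ 2 : ℝ) : ℂ) = conj (u x) := by
    rw [← single_le x u, ← h, inner_sub_right, inner_smul_right, inner_self_eq_norm_sq_to_K]
    simp
  have hI := congrArg Complex.im e
  have hR := congrArg Complex.re e
  simp [hreal, -Complex.ofReal_pow] at hI hR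
  have hx : ‖u x‖ ≤ ‖u‖ := lp.norm_apply_le_norm (by norm_num) u x
  have him := Complex.abs_im_le_norm (u x)
  have hre := Complex.abs_re_le_norm (u x)
  have h1 : η * ‖u‖ ^ 2 ≤ ‖u x‖ := by
    rw [hI]
    exact le_trans (le_abs_self _) him
  refine ⟨h1, ?_, ?_⟩
  · rcases eq_or_lt_of_le (norm_nonneg u) with h0 | h0
    · rw [← h0, mul_zero]; exact zero_le_one
    · refine le_of_mul_le_mul_right ?_ h0
      rw [one_mul, mul_assoc, ← sq]
      exact le_trans h1 hx
  · rcases eq_or_lt_of_le (norm_nonneg u) with h0 | h0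
    · rw [← h0, mul_zero]; exact zero_le_one
    · refine le_of_mul_le_mul_right ?_ h0
      rw [one_mul, mul_assoc, ← sq]
      have hHu : |(⟪u, H u⟫_ℂ).re| ≤ (2 * d + 1 : ℝ) * ‖u‖ ^ 2 := by
        refine le_trans (le_trans (Complex.abs_re_le_norm _) (norm_inner_le_norm u (H u))) ?_
        rw [sq, ← mul_assoc, mul_comm (2 * (d:ℝ) + 1) ‖u‖, mul_assoc]
        exact mul_le_mul_of_nonneg_left (schrodingerCLM_norm_le v hv u) (norm_nonneg _)
      have h3 : |E * ‖u‖ ^ 2| ≤ (2 * d + 1 : ℝ) * ‖u‖ ^ 2 + ‖u x‖ := by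
        have : E * ‖u‖ ^ 2 = (⟪u, H u⟫_ℂ).re - (u x).re := by linarith
        rw [this]
        exact le_trans (abs_sub _ _) (add_le_add hHu hre)
      rw [abs_mul, abs_of_nonneg (sq_nonneg ‖u‖)] at h3
      linarith

lemma eigen_bound (v : Lat d → ℝ) (hv : ∀ y, |v y| ≤ 1) {E η : ℝ} (hη : 0 < η) {x : Lat d}
    {u ψ : L2Lat d} (hu : SolvesEq v ((E:ℂ) + (η:ℂ) * Complex.I) u (lp.single 2 x 1 : L2Lat d))
    (hψ : SolvesEq v (E:ℂ) ψ 0) : ‖ψ x‖ ^ 2 ≤ η * ‖u x‖ * ‖ψ‖ ^ 2 := by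
  have h := (solvesEq_iff v hv _ u _).mp hu
  have h' : schrodingerCLM v hv ψ - (E:ℂ) • ψ = 0 :=
    (solvesEq_iff v hv _ ψ 0).mp (fun y => by rw [lp.coeFn_zero]; exact hψ y)
  rw [sub_eq_zero] at h'
  have e : ψ x = (η:ℂ) * Complex.I * ⟪u, ψ⟫_ℂ := by
    have : ψ x = ⟪(lp.single 2 x 1 : L2Lat d), ψ⟫_ℂ := by rw [lp.inner_single_left]; simp
    rw [this, ← h, inner_sub_left, schrodingerCLM_symm, h', inner_smul_right, inner_smul_left]
    simp
    ring
  have hb : ‖ψ x‖ ≤ η * (‖u‖ * ‖ψ‖) := by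
    rw [e, norm_mul, norm_mul, Complex.norm_I, mul_one, Complex.norm_real, Real.norm_eq_abs,
      abs_of_pos hη]
    exact mul_le_mul_of_nonneg_left (norm_inner_le_norm _ _) hη.le
  calc ‖ψ x‖ ^ 2 ≤ (η * (‖u‖ * ‖ψ‖)) ^ 2 := pow_le_pow_left₀ (norm_nonneg _) hb 2
    _ = η * (η * ‖u‖ ^ 2) * ‖ψ‖ ^ 2 := by ring
    _ ≤ _ := by gcongr; exact (im_bound v hv hη hu).1

/-- The representative of a torus site closest to the origin. -/
def torusRep {N : ℕ} (k : Fin d → ZMod N) : Lat d := fun i => (k i).valMinAbs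

lemma torusRep_injective {N : ℕ} : Function.Injective (torusRep (d := d) (N := N)) :=
  fun _ _ h => funext fun i => ZMod.injective_valMinAbs (congrFun h i)

/-- A Lipschitz cut-off of radius `R`. -/
noncomputable def cutoff (R : ℝ) (y : Lat d) : ℝ := max 0 (1 - ‖y‖ / R)

lemma cutoff_zero (R : ℝ) : cutoff R (0 : Lat d) = 1 := by simp [cutoff]

lemma cutoff_nonneg (R : ℝ) (y : Lat d) : 0 ≤ cutoff R y := le_max_left _ _

lemma cutoff_le_one {R : ℝ} (hR : 0 < R) (y : Lat d) : cutoff R y ≤ 1 :=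
  max_le zero_le_one (by linarith [div_nonneg (norm_nonneg y) hR.le])

lemma cutoff_eq_zero {R : ℝ} (hR : 0 < R) {y : Lat d} (h : R ≤ ‖y‖) : cutoff R y = 0 :=
  max_eq_left (by rw [sub_nonpos, le_div_iff₀ hR]; linarith)

lemma cutoff_lipschitz {R : ℝ} (hR : 0 < R) (y a : Lat d) (ha : ‖a‖ ≤ 1) :
    |cutoff R (y + a) - cutoff R y| ≤ 1 / R := by
  unfold cutoff
  rw [max_comm 0, max_comm 0]
  refine le_trans (abs_max_sub_max_le_abs _ _ _) ?_
  rw [show (1 - ‖y + a‖ / R) - (1 - ‖y‖ / R) = (‖y‖ - ‖y + a‖) / R by ring, abs_div,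
    abs_of_pos hR]
  gcongr
  refine le_trans (abs_norm_sub_norm_le _ _) ?_
  simpa using ha

lemma norm_unit (i : Fin d) : ‖(Pi.single i 1 : Lat d)‖ ≤ 1 := by
  rw [pi_norm_le_iff_of_nonneg zero_le_one]
  intro j
  rcases eq_or_ne j i with rfl | h
  · simp
  · simp [h]

lemma cutoff_periodic {N : ℕ} [NeZero N] {R : ℝ} (hR : 0 < R) (hRN : R + 1 ≤ (N:ℝ) / 2)
    (k : Fin d → ZMod N) (y : Lat d) (hy : (fun i => ((y i : ℤ) : ZMod N)) = k)
    (hyn : ‖y‖ ≤ (N:ℝ) / 2 + 1) (G : Lat d → ℂ) :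
    (cutoff R (torusRep k) : ℂ) * G (torusRep k) = (cutoff R y : ℂ) * G y := by
  by_cases h : torusRep k = y
  · rw [h]
  obtain ⟨i, hi⟩ := Function.ne_iff.mp h
  have hdvd : (N:ℤ) ∣ torusRep k i - y i := by
    rw [← ZMod.intCast_zmod_eq_zero_iff_dvd, Int.cast_sub, torusRep, ZMod.coe_valMinAbs, ← hy,
      sub_self]
  have hge : (N:ℝ) ≤ ‖torusRep k i‖ + ‖y i‖ := by
    refine le_trans ?_ (norm_sub_le _ _)
    have := Int.le_of_dvd (abs_pos.mpr (sub_ne_zero.mpr hi)) ((dvd_abs _ _).mpr hdvd)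
    rw [Int.norm_eq_abs]
    exact_mod_cast this
  have hrep : ‖torusRep k i‖ ≤ (N:ℝ) / 2 := by
    have h2 := (k i).valMinAbs_mem_Ioc
    rw [Int.norm_eq_abs, le_div_iff₀ two_pos]
    have : |torusRep k i| * 2 ≤ (N:ℤ) := by
      rw [← abs_two, ← abs_mul, abs_le]
      exact ⟨h2.1.le, h2.2⟩
    exact_mod_cast this
  have hyi : ‖y i‖ ≤ ‖y‖ := norm_le_pi_norm y i
  have hki : ‖torusRep k i‖ ≤ ‖torusRep k‖ := norm_le_pi_norm _ i
  rw [cutoff_eq_zero hR (by linarith), cutoff_eq_zero hR (by linarith)]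
  simp

lemma torusRep_norm {N : ℕ} [NeZero N] (k : Fin d → ZMod N) : ‖torusRep k‖ ≤ (N:ℝ) / 2 := by
  rw [pi_norm_le_iff_of_nonneg (by positivity)]
  intro i
  have h2 := (k i).valMinAbs_mem_Ioc
  rw [Int.norm_eq_abs, le_div_iff₀ two_pos]
  have : |torusRep k i| * 2 ≤ (N:ℤ) := by
    rw [← abs_two, ← abs_mul, abs_le]
    exact ⟨h2.1.le, h2.2⟩
  exact_mod_cast this

/-- The restricted function. -/
noncomputable def restrictTorus {N : ℕ} (R : ℝ) (x : Lat d) (u : L2Lat d)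
    (k : Fin d → ZMod N) : ℂ :=
  (cutoff R (torusRep k) : ℂ) * u (x + torusRep k)

/-- The commutator error. -/
noncomputable def restrictErr {N : ℕ} (R : ℝ) (x : Lat d) (u : L2Lat d)
    (k : Fin d → ZMod N) : ℂ :=
  ∑ i : Fin d,
    (((cutoff R (torusRep k + Pi.single i 1) - cutoff R (torusRep k) : ℝ) : ℂ) *
        u (x + torusRep k + Pi.single i 1) +
      ((cutoff R (torusRep k + -Pi.single i 1) - cutoff R (torusRep k) : ℝ) : ℂ) *
        u (x + torusRep k + -Pi.single i 1))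

lemma torusRep_zero {N : ℕ} : torusRep (0 : Fin d → ZMod N) = (0 : Lat d) := by
  funext i; simp [torusRep]

lemma restrict_shift {N : ℕ} [NeZero N] {R : ℝ} (hR : 0 < R) (hRN : R + 1 ≤ (N:ℝ) / 2)
    (x : Lat d) (u : L2Lat d) (k : Fin d → ZMod N) (s : Lat d) (hs : ‖s‖ ≤ 1)
    (s' : Fin d → ZMod N) (hs' : (fun i => ((s i : ℤ) : ZMod N)) = s') :
    restrictTorus R x u (k + s') =
      (cutoff R (torusRep k + s) : ℂ) * u (x + torusRep k + s) := by
  have := cutoff_periodic hR hRN (k + s') (torusRep k + s) (by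
    funext i
    simp [← hs', torusRep])
    (le_trans (norm_add_le _ _) (by linarith [torusRep_norm k]))
    (fun y => u (x + y))
  rw [add_assoc x]
  exact this

lemma restrict_eq {N : ℕ} [NeZero N] {R : ℝ} (hR : 0 < R) (hRN : R + 1 ≤ (N:ℝ) / 2)
    (v : Lat d → ℝ) (x : Lat d) (u : L2Lat d) (z z' : ℂ)
    (hu : SolvesEq v z u (lp.single 2 x 1 : L2Lat d)) (k : Fin d → ZMod N) :
    torusHop (restrictTorus R x u) k + ((v (x + torusRep k) : ℝ) : ℂ) * restrictTorus R x u k -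
        z' * restrictTorus R x u k =
      (Pi.single 0 1 : (Fin d → ZMod N) → ℂ) k +
        (restrictErr R x u k + (z - z') * restrictTorus R x u k) := by
  have hp : ∀ i : Fin d, restrictTorus R x u (k + Pi.single i 1) =
      (cutoff R (torusRep k + Pi.single i 1) : ℂ) * u (x + torusRep k + Pi.single i 1) :=
    fun i => restrict_shift hR hRN x u k _ (norm_unit i) _ (by
      funext j; rcases eq_or_ne j i with rfl | h <;> simp [*])
  have hm : ∀ i : Fin d, restrictTorus R x u (k + -Pi.single i 1) =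
      (cutoff R (torusRep k + -Pi.single i 1) : ℂ) * u (x + torusRep k + -Pi.single i 1) :=
    fun i => restrict_shift hR hRN x u k _ (by rw [norm_neg]; exact norm_unit i) _ (by
      funext j; rcases eq_or_ne j i with rfl | h <;> simp [*])
  have hdelta : (Pi.single 0 1 : (Fin d → ZMod N) → ℂ) k =
      (cutoff R (torusRep k) : ℂ) * (lp.single 2 x 1 : L2Lat d) (x + torusRep k) := by
    rcases eq_or_ne k 0 with rfl | hk
    · simp [torusRep_zero, cutoff_zero]
    · rw [Pi.single_eq_of_ne hk, lp.single_apply_ne, mul_zero]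
      intro h
      exact hk (torusRep_injective (by rw [torusRep_zero]; simpa using h))
  rw [hdelta, ← hu (x + torusRep k)]
  simp only [torusHop, hp, hm, restrictErr, sub_eq_add_neg (x + torusRep k)]
  simp only [restrictTorus]
  push_cast
  simp only [mul_sub, mul_add, Finset.mul_sum, Finset.sum_add_distrib, sub_mul,
    Finset.sum_sub_distrib]
  ring

lemma restrict_norm {N : ℕ} [NeZero N] {R : ℝ} (hR : 0 < R) (x : Lat d) (u : L2Lat d) :
    ∑ k : Fin d → ZMod N, ‖restrictTorus R x u k‖ ^ 2 ≤ ‖u‖ ^ 2 := by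
  refine le_trans (Finset.sum_le_sum fun k _ => ?_)
    (sum_sq_shift_le u (fun k : Fin d → ZMod N => x + torusRep k)
      fun _ _ h => torusRep_injective (add_left_cancel h))
  simp only [restrictTorus, norm_mul, mul_pow, Complex.norm_real, Real.norm_eq_abs,
    abs_of_nonneg (cutoff_nonneg R _)]
  exact mul_le_of_le_one_left (sq_nonneg _)
    (pow_le_one₀ (cutoff_nonneg R _) (cutoff_le_one hR _))

lemma restrictErr_norm {N : ℕ} [NeZero N] {R : ℝ} (hR : 0 < R) (x : Lat d) (u : L2Lat d) :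
    ∑ k : Fin d → ZMod N, ‖restrictErr R x u k‖ ^ 2 ≤ (2 * (d:ℝ) / R) ^ 2 * ‖u‖ ^ 2 := by
  have hshift : ∀ s : Lat d, ∑ k : Fin d → ZMod N, ‖u (x + torusRep k + s)‖ ^ 2 ≤ ‖u‖ ^ 2 :=
    fun s => sum_sq_shift_le u (fun k : Fin d → ZMod N => x + torusRep k + s)
      fun _ _ h => torusRep_injective (add_left_cancel (add_right_cancel h))
  have h1 : ∀ k : Fin d → ZMod N, ‖restrictErr R x u k‖ ^ 2 ≤ (1 / R) ^ 2 * (2 * (d:ℝ)) *
      ∑ i : Fin d, (‖u (x + torusRep k + Pi.single i 1)‖ ^ 2 +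
        ‖u (x + torusRep k + -Pi.single i 1)‖ ^ 2) := by
    intro k
    have : ‖restrictErr R x u k‖ ≤ (1 / R) * ∑ i : Fin d,
        (‖u (x + torusRep k + Pi.single i 1)‖ + ‖u (x + torusRep k + -Pi.single i 1)‖) := by
      rw [restrictErr, Finset.mul_sum]
      refine le_trans (norm_sum_le _ _) (Finset.sum_le_sum fun i _ => ?_)
      refine le_trans (norm_add_le _ _) ?_
      rw [norm_mul, norm_mul, Complex.norm_real, Complex.norm_real, Real.norm_eq_abs,
        Real.norm_eq_abs, mul_add]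
      exact add_le_add
        (mul_le_mul_of_nonneg_right (cutoff_lipschitz hR _ _ (norm_unit i)) (norm_nonneg _))
        (mul_le_mul_of_nonneg_right (cutoff_lipschitz hR _ _
          (by rw [norm_neg]; exact norm_unit i)) (norm_nonneg _))
    refine le_trans (pow_le_pow_left₀ (norm_nonneg _) this 2) ?_
    rw [mul_pow, mul_assoc]
    refine mul_le_mul_of_nonneg_left ?_ (sq_nonneg _)
    refine le_trans (sq_sum_le_card_mul_sum_sq (s := (univ : Finset (Fin d)))) ?_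
    rw [Finset.card_univ, Fintype.card_fin, mul_comm (2:ℝ) (d:ℝ), mul_assoc,
      Finset.mul_sum (a := (2:ℝ))]
    refine mul_le_mul_of_nonneg_left (Finset.sum_le_sum fun i _ => ?_) (Nat.cast_nonneg _)
    exact add_sq_le
  refine le_trans (Finset.sum_le_sum fun k _ => h1 k) ?_
  rw [← Finset.mul_sum, Finset.sum_comm]
  simp only [Finset.sum_add_distrib]
  refine le_trans (mul_le_mul_of_nonneg_left (add_le_add
    (Finset.sum_le_sum fun i _ => hshift (Pi.single i 1))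
    (Finset.sum_le_sum fun i _ => hshift (-Pi.single i 1))) (by positivity)) ?_
  simp only [Finset.sum_const, Finset.card_univ, Fintype.card_fin, nsmul_eq_mul]
  exact le_of_eq (by ring)

/-- Transfer of the torus bound to the infinite lattice. -/
theorem lattice_bound (d N : ℕ) [NeZero N] (E E' η R : ℝ) (hη : 0 < η) (hη1 : η ≤ 1)
    (hηN : 2 ≤ η * N) (hR : 0 < R) (hRN : R + 1 ≤ (N:ℝ) / 2)
    (v : Lat (d + 2) → ℝ) (x : Lat (d + 2))
    (hsmall : ∀ w, ∑ i, ‖(Matrix.mulVec (randMat (sqrtFree (d + 2) N E' η)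
        (fun k => v (x + torusRep k))) w) i‖ ^ 2 ≤ 1 / 4 * ∑ i, ‖w i‖ ^ 2)
    (u : L2Lat (d + 2))
    (hu : SolvesEq v ((E:ℂ) + (η:ℂ) * Complex.I) u (lp.single 2 x 1 : L2Lat (d + 2))) :
    ‖u x‖ ≤ 2 * Real.sqrt (1728 * logFactor N ^ 2) * (Real.sqrt (1728 * logFactor N ^ 2) +
      Real.sqrt (η⁻¹ * (2 * ((2 * (d + 2 : ℝ) / R) ^ 2 + (E - E') ^ 2) * ‖u‖ ^ 2))) := by
  have hB : ∑ k : Fin (d + 2) → ZMod N,
      ‖((E - E' : ℝ) : ℂ) * restrictTorus R x u k‖ ^ 2 ≤ (E - E') ^ 2 * ‖u‖ ^ 2 := by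
    simp only [norm_mul, mul_pow, Complex.norm_real, Real.norm_eq_abs, sq_abs, ← Finset.mul_sum]
    exact mul_le_mul_of_nonneg_left (restrict_norm hR x u) (sq_nonneg _)
  have hA := restrictErr_norm (N := N) hR x u
  have hr : ∑ k : Fin (d + 2) → ZMod N,
      ‖restrictErr R x u k + ((E - E' : ℝ) : ℂ) * restrictTorus R x u k‖ ^ 2 ≤
      2 * ((2 * (d + 2 : ℝ) / R) ^ 2 + (E - E') ^ 2) * ‖u‖ ^ 2 := by
    refine le_trans (Finset.sum_le_sum fun k _ => le_trans
      (pow_le_pow_left₀ (norm_nonneg _) (norm_add_le _ _) 2) add_sq_le) ?_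
    rw [← Finset.mul_sum, Finset.sum_add_distrib]
    push_cast at hA
    linarith
  have heq : ∀ k, torusHop (restrictTorus R x u) k +
      ((v (x + torusRep k) : ℝ) : ℂ) * restrictTorus R x u k -
        ((E' : ℂ) + (η : ℂ) * Complex.I) * restrictTorus R x u k =
      (Pi.single 0 1 : (Fin (d + 2) → ZMod N) → ℂ) k +
        (restrictErr R x u k + ((E - E' : ℝ) : ℂ) * restrictTorus R x u k) := by
    intro k
    rw [restrict_eq hR hRN v x u _ _ hu k]
    push_cast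
    ring
  have := torus_bound d N E' η hη hη1 hηN (fun k => v (x + torusRep k)) hsmall
    (restrictTorus R x u) _ _ hr heq
  simpa [restrictTorus, torusRep_zero, cutoff_zero] using this

end Vale.Agent.Anderson
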