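/- Uniform resolvent bound at the kinetic scale for the weakly disordered Anderson model. -/
import Mathlib
import Vale.Agent.Anderson.Lattice

namespace Vale.Agent.Anderson

open MeasureTheory

/-- The i.i.d. uniform law on lattice configurations. -/
noncomputable def latticeLaw (d : ℕ) : Measure (Lat d → ℝ) :=
  Measure.infinitePi fun _ : Lat d => unifLaw

instance (d : ℕ) : IsProbabilityMeasure (latticeLaw d) := by unfold latticeLaw; infer_instance

lemma proj_measurePreserving {d : ℕ} {κ : Type*} [Fintype κ] (f : κ → Lat d)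
    (hf : Function.Injective f) :
    MeasurePreserving (fun (ω : Lat d → ℝ) k => ω (f k)) (latticeLaw d) (boxLaw κ) := by
  classical
  have hm : Measurable fun (ω : Lat d → ℝ) k => ω (f k) :=
    measurable_pi_lambda _ fun k => measurable_pi_apply _
  refine ⟨hm, ?_⟩
  unfold boxLaw
  refine (Measure.pi_eq fun s hs => ?_).symm
  rw [Measure.map_apply hm (MeasurableSet.univ_pi hs)]
  have hpre : (fun (ω : Lat d → ℝ) k => ω (f k)) ⁻¹' Set.univ.pi s =
      Set.pi (↑(Finset.univ.image f)) (Function.extend f s fun _ => Set.univ) := by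
    ext ω
    simp [Set.mem_pi, hf.extend_apply]
  rw [hpre, latticeLaw, Measure.infinitePi_pi, Finset.prod_image fun a _ b _ h => hf h]
  · exact Finset.prod_congr rfl fun k _ => by rw [hf.extend_apply]
  · intro y hy
    obtain ⟨k, -, rfl⟩ := Finset.mem_image.mp hy
    rw [hf.extend_apply]
    exact hs k

lemma latticeLaw_ae (d : ℕ) : ∀ᵐ ω ∂(latticeLaw d), ∀ y, |ω y| ≤ 1 := by
  rw [ae_all_iff]
  intro y
  have := (measurePreserving_eval_infinitePi (fun _ : Lat d => unifLaw) y).quasiMeasurePreserving.ae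
    unifLaw_ae
  exact this.mono fun ω h => abs_le.mpr h

lemma log_inv_cube_le {lam : ℝ} (h0 : 0 < lam) (h1 : lam ≤ 1) :
    lam ^ 2 * Real.log (1 / lam) ^ 3 ≤ 64 * lam := by
  set s := √(√(1 / lam)) with hs
  have hs0 : 0 < s := Real.sqrt_pos.mpr (Real.sqrt_pos.mpr (by positivity))
  have hs4 : s ^ 4 = 1 / lam := by
    rw [show s ^ 4 = (s ^ 2) ^ 2 by ring, hs, Real.sq_sqrt (Real.sqrt_nonneg _),
      Real.sq_sqrt (by positivity)]
  have hs1 : 1 ≤ s := Real.one_le_sqrt.mpr (Real.one_le_sqrt.mpr ((one_le_div₀ h0).mpr h1))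
  have hlog : Real.log (1 / lam) ≤ 4 * s := by
    rw [← hs4, Real.log_pow]
    push_cast
    linarith [Real.log_le_sub_one_of_pos hs0]
  have hlog0 : 0 ≤ Real.log (1 / lam) := Real.log_nonneg ((one_le_div₀ h0).mpr h1)
  calc lam ^ 2 * Real.log (1 / lam) ^ 3 ≤ lam ^ 2 * (4 * s) ^ 3 :=
        mul_le_mul_of_nonneg_left (pow_le_pow_left₀ hlog0 hlog 3) (sq_nonneg _)
    _ ≤ lam ^ 2 * (64 * s ^ 4) := by
        refine mul_le_mul_of_nonneg_left ?_ (sq_nonneg _)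
        rw [mul_pow, show (4:ℝ) ^ 3 = 64 by norm_num, pow_succ s 3]
        exact mul_le_mul_of_nonneg_left (le_mul_of_one_le_right (by positivity) hs1) (by norm_num)
    _ = 64 * lam := by rw [hs4]; field_simp

lemma torus_size {lam η : ℝ} (h0 : 0 < lam) (hη : 0 < η) (hη1 : η ≤ 1) (hηlow : lam ^ 2 ≤ η)
    (hΛ : 1 ≤ Real.log (1 / lam)) :
    ∃ n : ℕ, (η ^ 2)⁻¹ ≤ n ∧ 2 ≤ η * ((2 * n + 4 : ℕ) : ℝ) ∧
      ((2 * n + 4 : ℕ) : ℝ) ≤ 8 * (lam⁻¹) ^ 4 ∧
      1728 * logFactor (2 * n + 4) ^ 2 ≤ 110592 * Real.log (1 / lam) ^ 2 := by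
  refine ⟨⌈(η ^ 2)⁻¹⌉₊, Nat.le_ceil _, ?_, ?_, ?_⟩
  · have h : η * η⁻¹ = 1 := mul_inv_cancel₀ hη.ne'
    have h2 : η⁻¹ ≤ (η ^ 2)⁻¹ :=
      inv_anti₀ (by positivity) (by rw [sq]; exact mul_le_of_le_one_left hη.le hη1)
    have h3 := Nat.le_ceil (η ^ 2)⁻¹
    push_cast
    nlinarith
  all_goals
    have hub : ((2 * ⌈(η ^ 2)⁻¹⌉₊ + 4 : ℕ) : ℝ) ≤ 8 * (lam⁻¹) ^ 4 := by
      have h3 := (Nat.ceil_lt_add_one (show 0 ≤ (η ^ 2)⁻¹ by positivity)).le
      have h4 : (η ^ 2)⁻¹ ≤ (lam⁻¹) ^ 4 := by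
        rw [inv_pow, show lam ^ 4 = (lam ^ 2) ^ 2 by ring]
        exact inv_anti₀ (by positivity) (pow_le_pow_left₀ (by positivity) hηlow 2)
      have h5 : 1 ≤ (η ^ 2)⁻¹ := (one_le_inv₀ (by positivity)).mpr (pow_le_one₀ hη.le hη1)
      push_cast
      linarith
  · exact hub
  · set N := 2 * ⌈(η ^ 2)⁻¹⌉₊ + 4
    have hN : (0:ℝ) < (N:ℝ) := by positivity
    have h := Real.log_le_log hN hub
    rw [Real.log_mul (by norm_num) (by positivity), Real.log_pow, ← one_div,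
      show (8:ℝ) = 2 ^ 3 by norm_num, Real.log_pow] at h
    push_cast at h
    have h2 : Real.log 2 ≤ 1 := by linarith [Real.log_two_lt_d9]
    have hL : logFactor N ≤ 8 * Real.log (1 / lam) := by unfold logFactor; linarith
    have hL0 : 1 ≤ logFactor N := logFactor_ge_one (by omega)
    calc 1728 * logFactor N ^ 2 ≤ 1728 * (8 * Real.log (1 / lam)) ^ 2 := by gcongr
      _ = _ := by ring

/-- On a good configuration the bound holds for every solution. -/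
lemma good_solution_bound (d N : ℕ) [NeZero N] {lam η R : ℝ}
    (hη : 0 < η) (hη1 : η ≤ 1) (hηN : 2 ≤ η * N) (hR : (η ^ 2)⁻¹ ≤ R)
    (hRN : R + 1 ≤ (N:ℝ) / 2) (hΛ : 1 ≤ Real.log (1 / lam))
    (hg : 1728 * logFactor N ^ 2 ≤ 110592 * Real.log (1 / lam) ^ 2)
    (J : ℕ) (hJ : 2 * (2 * (d + 2 : ℝ) + 4) / η ^ 3 ≤ J)
    (v : Lat (d + 2) → ℝ) (hv : ∀ y, |v y| ≤ 1) (x : Lat (d + 2))
    (hsmall : ∀ j ≤ J, ∀ w, ∑ i, ‖(Matrix.mulVec (randMat (sqrtFree (d + 2) N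
        (-(2 * (d + 2 : ℝ) + 4) + j * η ^ 3) η) (fun k => v (x + torusRep k))) w) i‖ ^ 2 ≤
          1 / 4 * ∑ i, ‖w i‖ ^ 2)
    (E : ℝ) (u : L2Lat (d + 2))
    (hu : SolvesEq v ((E:ℂ) + (η:ℂ) * Complex.I) u (lp.single 2 x 1 : L2Lat (d + 2))) :
    ‖u x‖ ≤ 2 * 110592 * (1 + √(2 * (4 * (d + 2 : ℝ) ^ 2 + 1))) * Real.log (1 / lam) ^ 2 := by
  set Λ := Real.log (1 / lam)
  set c := √(2 * (4 * (d + 2 : ℝ) ^ 2 + 1))
  have hc : 0 ≤ c := Real.sqrt_nonneg _
  obtain ⟨-, hnorm, hout⟩ := im_bound v hv hη hu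
  set G : ℝ := 2 * (d + 2 : ℝ) + 4 with hG
  have hΛ2 : 1 ≤ Λ ^ 2 := one_le_pow₀ hΛ
  by_cases hE : G ≤ |E|
  · have h1 : ‖u‖ ≤ 1 := by
      refine le_trans ?_ hout
      push_cast
      exact le_mul_of_one_le_left (norm_nonneg _) (by linarith)
    have h2 : ‖u x‖ ≤ ‖u‖ := lp.norm_apply_le_norm (by norm_num) u x
    have : 1 ≤ 2 * 110592 * (1 + c) * Λ ^ 2 := by nlinarith
    linarith
  · obtain ⟨hE1, hE2⟩ := abs_lt.mp (not_le.mp hE)
    set j := ⌊(E + G) / η ^ 3⌋₊ with hj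
    have hη3 : 0 < η ^ 3 := by positivity
    have hq : 0 ≤ (E + G) / η ^ 3 := by
      apply div_nonneg <;> linarith
    have hjJ : j ≤ J := by
      refine Nat.floor_le_of_le (le_trans ?_ hJ)
      gcongr
      linarith
    have hE' : (E - (-G + j * η ^ 3)) ^ 2 ≤ η ^ 4 := by
      have a1 := Nat.floor_le hq
      have a2 := Nat.lt_floor_add_one ((E + G) / η ^ 3)
      rw [← hj] at a1 a2
      rw [le_div_iff₀ hη3] at a1
      rw [div_lt_iff₀ hη3] at a2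
      have : η ^ 3 ≤ η ^ 2 := pow_le_pow_of_le_one hη.le hη1 (by norm_num)
      rw [show η ^ 4 = (η ^ 2) ^ 2 by ring]
      exact pow_le_pow_left₀ (by linarith) (by linarith) 2
    have hR0 : 0 < R := lt_of_lt_of_le (by positivity) hR
    have hb := lattice_bound d N E (-G + j * η ^ 3) η R hη hη1 hηN hR0 hRN v x (hsmall j hjJ) u hu
    refine le_trans hb ?_
    set g := 1728 * logFactor N ^ 2 with hgdef
    have hg1 : 1 ≤ g := by
      have : 1 ≤ logFactor N := logFactor_ge_one (NeZero.pos N)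
      nlinarith
    have hρ : η⁻¹ * (2 * ((2 * (d + 2 : ℝ) / R) ^ 2 + (E - (-G + j * η ^ 3)) ^ 2) * ‖u‖ ^ 2) ≤
        2 * (4 * (d + 2 : ℝ) ^ 2 + 1) := by
      have h1 : (2 * (d + 2 : ℝ) / R) ^ 2 ≤ 4 * (d + 2 : ℝ) ^ 2 * η ^ 4 := by
        have : 1 / R ≤ η ^ 2 := by
          rw [div_le_iff₀ hR0]
          rw [inv_le_iff_one_le_mul₀' (by positivity)] at hR
          exact hR
        rw [show 2 * (d + 2 : ℝ) / R = 2 * (d + 2 : ℝ) * (1 / R) by ring, mul_pow, mul_pow,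
          show η ^ 4 = (η ^ 2) ^ 2 by ring]
        exact le_trans (mul_le_mul_of_nonneg_left (pow_le_pow_left₀ (by positivity) this 2)
          (by positivity)) (le_of_eq (by ring))
      have h2 : η ^ 2 * ‖u‖ ^ 2 ≤ 1 := by
        rw [← mul_pow]; exact pow_le_one₀ (by positivity) hnorm
      calc η⁻¹ * (2 * ((2 * (d + 2 : ℝ) / R) ^ 2 + (E - (-G + j * η ^ 3)) ^ 2) * ‖u‖ ^ 2)
          ≤ η⁻¹ * (2 * ((4 * (d + 2 : ℝ) ^ 2 + 1) * η ^ 4) * ‖u‖ ^ 2) := by
            gcongr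
            linarith
        _ = 2 * (4 * (d + 2 : ℝ) ^ 2 + 1) * η * (η ^ 2 * ‖u‖ ^ 2) := by
            field_simp
        _ ≤ 2 * (4 * (d + 2 : ℝ) ^ 2 + 1) * 1 * 1 := by gcongr
        _ = _ := by ring
    have hsc : √(η⁻¹ * (2 * ((2 * (d + 2 : ℝ) / R) ^ 2 + (E - (-G + j * η ^ 3)) ^ 2) * ‖u‖ ^ 2))
        ≤ √g * c := le_trans (Real.sqrt_le_sqrt hρ)
      (le_mul_of_one_le_left hc (Real.one_le_sqrt.mpr hg1))
    have hsq : √g * √g = g := Real.mul_self_sqrt (by positivity)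
    calc 2 * √g * (√g + √(η⁻¹ * (2 * ((2 * (d + 2 : ℝ) / R) ^ 2 +
          (E - (-G + j * η ^ 3)) ^ 2) * ‖u‖ ^ 2))) ≤ 2 * √g * (√g + √g * c) :=
          mul_le_mul_of_nonneg_left (add_le_add le_rfl hsc) (by positivity)
      _ = 2 * (√g * √g) * (1 + c) := by ring
      _ = 2 * g * (1 + c) := by rw [hsq]
      _ ≤ 2 * (110592 * Λ ^ 2) * (1 + c) := by gcongr
      _ = _ := by ring

/-- Probability that a single torus block is bad. -/
lemma block_tail (d N : ℕ) [NeZero N] {lam η K E : ℝ} (A : ℕ) (h0 : 0 < lam)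
    (hη : 0 < η) (hη1 : η ≤ 1) (hηN : 2 ≤ η * N) (hK : K = 1769472 * Real.exp A)
    (hηdef : η = K * lam ^ 2 * Real.log (1 / lam) ^ 3)
    (hΛ : 1 ≤ Real.log (1 / lam))
    (hg : 1728 * logFactor N ^ 2 ≤ 110592 * Real.log (1 / lam) ^ 2) :
    ∃ S : Set ((Fin (d + 2) → ZMod N) → ℝ), MeasurableSet S ∧
      boxLaw _ S ≤ ENNReal.ofReal (lam ^ A * (N:ℝ) ^ (d + 2)) ∧
      ∀ ω ∉ S, ∀ w, ∑ i, ‖(Matrix.mulVec (randMat (sqrtFree (d + 2) N E η)
        (fun k => lam * ω k)) w) i‖ ^ 2 ≤ 1 / 4 * ∑ i, ‖w i‖ ^ 2 := by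
  set Λ := Real.log (1 / lam) with hΛdef
  set p := ⌈Λ⌉₊
  have hp1 : 1 ≤ p := Nat.one_le_iff_ne_zero.mpr (Nat.ceil_pos.mpr (by linarith)).ne'
  have hpΛ : (p:ℝ) ≤ 2 * Λ := by
    have := Nat.ceil_lt_add_one (show 0 ≤ Λ by linarith)
    linarith
  have hg0 : 0 ≤ 1728 * logFactor N ^ 2 := by positivity
  obtain ⟨S, hS, hSm, hgood⟩ := randMat_tail (sqrtFree_hermitian (d := d + 2) (N := N) E η)
    hg0 (le_of_lt (inv_pos.mpr hη)) h0.le
    (fun x => sqrtFree_row d N E η hη hη1 hηN x) (sqrtFree_op E η hη) p hp1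
  refine ⟨S, hS, le_trans hSm (ENNReal.ofReal_le_ofReal ?_), hgood⟩
  rw [Fintype.card_fun, ZMod.card, Fintype.card_fin, Nat.cast_pow]
  refine mul_le_mul_of_nonneg_right ?_ (by positivity)
  have hbase : 8 * (p:ℝ) * lam ^ 2 * (1728 * logFactor N ^ 2) * η⁻¹ ≤ Real.exp (-(A:ℝ)) := by
    calc 8 * (p:ℝ) * lam ^ 2 * (1728 * logFactor N ^ 2) * η⁻¹
        ≤ 8 * (2 * Λ) * lam ^ 2 * (110592 * Λ ^ 2) * η⁻¹ := by gcongr
      _ = _ := by
          rw [hηdef, hK, Real.exp_neg]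
          have : Real.exp (A:ℝ) ≠ 0 := (Real.exp_pos _).ne'
          field_simp
          norm_num
  calc (8 * (p:ℝ) * lam ^ 2 * (1728 * logFactor N ^ 2) * η⁻¹) ^ p
      ≤ Real.exp (-(A:ℝ)) ^ p := pow_le_pow_left₀ (by positivity) hbase p
    _ ≤ Real.exp (-(A:ℝ) * Λ) := by
        rw [← Real.exp_nat_mul]
        apply Real.exp_le_exp.mpr
        rw [mul_comm (p:ℝ)]
        exact mul_le_mul_of_nonpos_left (Nat.le_ceil Λ) (neg_nonpos.mpr (Nat.cast_nonneg A))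
    _ = lam ^ A := by
        rw [hΛdef, one_div, Real.log_inv, neg_mul_neg, Real.exp_nat_mul, Real.exp_log h0]

/-- The main estimate, stated for operators in dimension `d + 2`. -/
theorem weak_disorder_spreading (d M : ℕ) :
    ∃ C K lam0 : ℝ, 0 < C ∧ 0 < K ∧ 0 < lam0 ∧ lam0 < 1 ∧
      ∀ lam : ℝ, 0 < lam → lam < lam0 →
      ∃ S : Set (Lat (d + 2) → ℝ), MeasurableSet S ∧
        latticeLaw (d + 2) S ≤ ENNReal.ofReal (lam ^ M) ∧
        ∀ ω ∉ S, (∀ y, |lam * ω y| ≤ 1) ∧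
          ∀ x : Lat (d + 2), (∀ i, |(x i : ℝ)| ≤ (lam⁻¹) ^ M) →
          ∀ (E : ℝ) (u : L2Lat (d + 2)),
            SolvesEq (fun y => lam * ω y)
              ((E:ℂ) + ((K * lam ^ 2 * Real.log (1 / lam) ^ 3 : ℝ) : ℂ) * Complex.I) u
              (lp.single 2 x 1 : L2Lat (d + 2)) →
            ‖u x‖ ≤ C * Real.log (1 / lam) ^ 2 := by
  set A : ℕ := M + 1 + M * (d + 2) + 6 + 4 * (d + 2) with hA
  set K : ℝ := 1769472 * Real.exp A with hKdef
  have hK1 : 1 ≤ K := by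
    have := Real.one_le_exp (Nat.cast_nonneg (α := ℝ) A)
    rw [hKdef]; linarith
  set G : ℝ := 2 * (d + 2 : ℝ) + 4 with hG
  set Ct : ℝ := 3 ^ (d + 2) * (2 * G + 2) * 8 ^ (d + 2) with hCt
  have hG0 : 0 < G := by positivity
  have hCt0 : 0 < Ct := by positivity
  refine ⟨2 * 110592 * (1 + √(2 * (4 * (d + 2 : ℝ) ^ 2 + 1))), K,
    min (Real.exp (-1)) (min (1 / (64 * K)) (1 / Ct)), by positivity, by linarith,
    lt_min (Real.exp_pos _) (lt_min (by positivity) (by positivity)),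
    lt_of_le_of_lt (min_le_left _ _) (Real.exp_lt_one_iff.mpr (by norm_num)), ?_⟩
  intro lam h0 hlt
  have hle_exp : lam ≤ Real.exp (-1) := hlt.le.trans (min_le_left _ _)
  have hle_K : lam ≤ 1 / (64 * K) := hlt.le.trans ((min_le_right _ _).trans (min_le_left _ _))
  have hle_Ct : lam ≤ 1 / Ct := hlt.le.trans ((min_le_right _ _).trans (min_le_right _ _))
  have hlam1 : lam ≤ 1 := hle_exp.trans (Real.exp_le_one_iff.mpr (by norm_num))
  have hΛ : 1 ≤ Real.log (1 / lam) := by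
    have := Real.log_le_log h0 hle_exp
    rw [Real.log_exp] at this
    rw [one_div, Real.log_inv]; linarith
  set Λ := Real.log (1 / lam) with hΛdef
  set η : ℝ := K * lam ^ 2 * Λ ^ 3 with hηdef
  have hΛ3 : 1 ≤ Λ ^ 3 := one_le_pow₀ hΛ
  have hηlow : lam ^ 2 ≤ η := by
    have : 1 ≤ K * Λ ^ 3 := one_le_mul_of_one_le_of_one_le hK1 hΛ3
    calc lam ^ 2 = lam ^ 2 * 1 := (mul_one _).symm
      _ ≤ lam ^ 2 * (K * Λ ^ 3) := mul_le_mul_of_nonneg_left this (sq_nonneg _)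
      _ = η := by rw [hηdef]; ring
  have hη : 0 < η := lt_of_lt_of_le (by positivity) hηlow
  have hη1 : η ≤ 1 := by
    calc η = K * (lam ^ 2 * Λ ^ 3) := by rw [hηdef]; ring
      _ ≤ K * (64 * lam) := mul_le_mul_of_nonneg_left (log_inv_cube_le h0 hlam1) (by linarith)
      _ ≤ 1 := by rw [le_div_iff₀ (by positivity)] at hle_K; linarith
  obtain ⟨n, hn, hηN, hNub, hg⟩ := torus_size h0 hη hη1 hηlow hΛ
  set N := 2 * n + 4
  set J := ⌈2 * G / η ^ 3⌉₊ with hJdef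
  set Xn := ⌊(lam⁻¹) ^ M⌋₊ with hXn
  set X : Finset (Lat (d + 2)) :=
    Fintype.piFinset fun _ => Finset.Icc (-(Xn:ℤ)) (Xn:ℤ) with hX
  choose Sb hSbm hSbμ hSbgood using fun j : ℕ =>
    block_tail d N (E := -G + j * η ^ 3) A h0 hη hη1 hηN hKdef hηdef hΛ hg
  have hproj : ∀ x : Lat (d + 2), MeasurePreserving
      (fun (ω : Lat (d + 2) → ℝ) (k : Fin (d + 2) → ZMod N) => ω (x + torusRep k))
      (latticeLaw (d + 2)) (boxLaw _) :=
    fun x => proj_measurePreserving _ fun _ _ h => torusRep_injective (add_left_cancel h)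
  set bad : Set (Lat (d + 2) → ℝ) := {ω | ∀ y, |ω y| ≤ 1}ᶜ with hbad
  have hgoodm : MeasurableSet {ω : Lat (d + 2) → ℝ | ∀ y, |ω y| ≤ 1} := by
    rw [Set.ofPred_forall]
    exact MeasurableSet.iInter fun y =>
      measurableSet_le (by fun_prop) measurable_const
  refine ⟨bad ∪ ⋃ q ∈ X ×ˢ Finset.range (J + 1),
    (fun (ω : Lat (d + 2) → ℝ) (k : Fin (d + 2) → ZMod N) => ω (q.1 + torusRep k)) ⁻¹' Sb q.2,
    hgoodm.compl.union (Finset.measurableSet_biUnion _ fun q _ =>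
      (hproj q.1).measurable (hSbm q.2)), ?_, ?_⟩
  · have hbad0 : latticeLaw (d + 2) bad = 0 := ae_iff.mp (latticeLaw_ae (d + 2))
    refine le_trans (measure_union_le _ _) ?_
    rw [hbad0, zero_add]
    refine le_trans (measure_biUnion_finset_le _ _) ?_
    refine le_trans (Finset.sum_le_sum (g := fun _ =>
      ENNReal.ofReal (lam ^ A * (N:ℝ) ^ (d + 2))) fun q _ => ?_) ?_
    · rw [(hproj q.1).measure_preimage (hSbm q.2).nullMeasurableSet]
      exact hSbμ q.2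
    · rw [Finset.sum_const, nsmul_eq_mul, ← ENNReal.ofReal_natCast,
        ← ENNReal.ofReal_mul (Nat.cast_nonneg _)]
      refine ENNReal.ofReal_le_ofReal ?_
      rw [Finset.card_product, hX, Fintype.card_piFinset, Finset.prod_const, Finset.card_univ,
        Fintype.card_fin, Finset.card_range, Int.card_Icc,
        show ((Xn:ℤ) + 1 - -(Xn:ℤ)).toNat = 2 * Xn + 1 by omega]
      push_cast
      have hi1 : 1 ≤ lam⁻¹ := (one_le_inv₀ h0).mpr hlam1
      have hx1 : 2 * (Xn:ℝ) + 1 ≤ 3 * (lam⁻¹) ^ M := by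
        have := Nat.floor_le (show 0 ≤ (lam⁻¹) ^ M by positivity)
        rw [← hXn] at this
        linarith [one_le_pow₀ (n := M) hi1]
      have hj1 : (J:ℝ) + 1 ≤ (2 * G + 2) * (lam⁻¹) ^ 6 := by
        have h3 := (Nat.ceil_lt_add_one (show 0 ≤ 2 * G / η ^ 3 by positivity)).le
        rw [← hJdef] at h3
        have h4 : 2 * G / η ^ 3 ≤ 2 * G * (lam⁻¹) ^ 6 := by
          rw [inv_pow, ← div_eq_mul_inv, show lam ^ 6 = (lam ^ 2) ^ 3 by ring]
          exact div_le_div_of_nonneg_left (by positivity) (by positivity)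
            (pow_le_pow_left₀ (sq_nonneg _) hηlow 3)
        linarith [one_le_pow₀ (n := 6) hi1]
      calc (2 * (Xn:ℝ) + 1) ^ (d + 2) * ((J:ℝ) + 1) * (lam ^ A * (N:ℝ) ^ (d + 2))
          ≤ (3 * (lam⁻¹) ^ M) ^ (d + 2) * ((2 * G + 2) * (lam⁻¹) ^ 6) *
              (lam ^ A * (8 * (lam⁻¹) ^ 4) ^ (d + 2)) := by gcongr
        _ = Ct * lam * lam ^ M := by
            rw [hCt, hA, mul_pow, mul_pow, ← pow_mul, ← pow_mul, inv_pow, inv_pow, inv_pow]
            simp only [pow_add, pow_one]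
            field_simp
        _ ≤ 1 * lam ^ M := by
            refine mul_le_mul_of_nonneg_right ?_ (by positivity)
            rw [le_div_iff₀ hCt0] at hle_Ct
            linarith
        _ = lam ^ M := one_mul _
  · intro ω hω
    rw [Set.mem_union, not_or] at hω
    obtain ⟨hω1, hω2⟩ := hω
    have hω1' : ∀ y, |ω y| ≤ 1 := not_not.mp hω1
    have hv : ∀ y, |lam * ω y| ≤ 1 := fun y => by
      rw [abs_mul, abs_of_pos h0]
      exact le_trans (mul_le_of_le_one_right h0.le (hω1' y)) hlam1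
    refine ⟨hv, fun x hx E u hu => ?_⟩
    have hxX : x ∈ X := by
      rw [hX, Fintype.mem_piFinset]
      intro i
      rw [Finset.mem_Icc, ← abs_le]
      have : (|x i|.toNat : ℕ) ≤ Xn := by
        refine Nat.le_floor ?_
        have e : ((|x i|.toNat : ℕ) : ℝ) = ((|x i| : ℤ) : ℝ) := by
          exact_mod_cast Int.toNat_of_nonneg (abs_nonneg (x i))
        rw [e, Int.cast_abs]
        exact hx i
      omega
    simp only [Set.mem_iUnion, Set.mem_preimage, not_exists] at hω2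
    have hRN : (n:ℝ) + 1 ≤ ((N:ℕ):ℝ) / 2 := by
      simp only [N]; push_cast; linarith
    exact good_solution_bound d N hη hη1 hηN hn hRN hΛ hg J (Nat.le_ceil _)
      (fun y => lam * ω y) hv x
      (fun j hj => hSbgood j _ (hω2 (x, j) (Finset.mem_product.mpr
        ⟨hxX, Finset.mem_range.mpr (by omega)⟩))) E u hu

end Vale.Agent.Anderson
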